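import Vale.Agent.P271.H884.Psh

/-!
P271, block DOM: Hoermander's theorem with singular weights (decreasing limits of smooth
plurisubharmonic weights).
-/

open MeasureTheory Filter Topology
open scoped ENNReal NNReal ComplexConjugate

namespace Vale.Agent.P271.Dom

open Vale.Agent.P282.L2 Vale.Agent.P282.L2.Sheets

variable {n N : ℕ} {S : Sheets n N}

/-- The limit of `exp (Φ m)`. -/
noncomputable def limE (Φ : ℕ → (Fin n → ℂ) × ℂ → ℝ) (q : (Fin n → ℂ) × ℂ) : ℝ :=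
  ⨅ m, Real.exp (Φ m q)

theorem limE_nonneg (Φ : ℕ → (Fin n → ℂ) × ℂ → ℝ) (q : (Fin n → ℂ) × ℂ) : 0 ≤ limE Φ q :=
  Real.iInf_nonneg fun _ => (Real.exp_pos _).le

theorem limE_bdd (Φ : ℕ → (Fin n → ℂ) × ℂ → ℝ) (q : (Fin n → ℂ) × ℂ) :
    BddBelow (Set.range fun m => Real.exp (Φ m q)) :=
  ⟨0, by rintro _ ⟨m, rfl⟩; exact (Real.exp_pos _).le⟩

theorem limE_le (Φ : ℕ → (Fin n → ℂ) × ℂ → ℝ) (m : ℕ) (q : (Fin n → ℂ) × ℂ) :
    limE Φ q ≤ Real.exp (Φ m q) := ciInf_le (limE_bdd Φ q) m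

theorem limE_tendsto {Φ : ℕ → (Fin n → ℂ) × ℂ → ℝ} {q : (Fin n → ℂ) × ℂ}
    (h : ∀ m, Φ (m + 1) q ≤ Φ m q) :
    Tendsto (fun m => Real.exp (Φ m q)) atTop (𝓝 (limE Φ q)) :=
  tendsto_atTop_ciInf (antitone_nat_of_succ_le fun m => Real.exp_le_exp.2 (h m)) (limE_bdd Φ q)

theorem limE_meas {Φ : ℕ → (Fin n → ℂ) × ℂ → ℝ} (hΦ : ∀ m, S.CD 2 (fun q => (Φ m q : ℂ)))
    (hanti : ∀ m, ∀ q ∈ S.M, Φ (m + 1) q ≤ Φ m q) :
    AEStronglyMeasurable (fun q => ((Real.sqrt (limE Φ q) : ℝ) : ℂ)) S.μ := by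
  have h1 : ∀ m, AEStronglyMeasurable
      (fun q => ((Real.sqrt (Real.exp (Φ m q)) : ℝ) : ℂ)) S.μ := by
    intro m
    refine (aestronglyMeasurable_of_CD (expH_CD (hΦ m) (1 / 2))).congr ?_
    filter_upwards with q
    congr 1
    rw [← Real.exp_half]
    congr 1
    ring
  refine aestronglyMeasurable_of_tendsto_ae atTop h1 ?_
  filter_upwards [ae_mem_M (S := S)] with q hq
  exact (Complex.continuous_ofReal.tendsto _).comp
    ((Real.continuous_sqrt.tendsto _).comp (limE_tendsto fun m => hanti m q hq))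

/-- Hoermander's theorem, decreasing sequences of weights. -/
theorem hormander_sing {p : (Fin n → ℂ) → ℝ} {C : ℝ} {k0 : ℕ} (hp : Exh S.V p C k0)
    {Φ : ℕ → (Fin n → ℂ) × ℂ → ℝ} (hΦ : ∀ m, S.CD 2 (fun q => (Φ m q : ℂ)))
    (hanti : ∀ m, ∀ q ∈ S.M, Φ (m + 1) q ≤ Φ m q)
    (hΦb : ∀ m, ∃ c : ℝ, ∀ q ∈ S.M, c ≤ Φ m q)
    (hlevi : ∀ m, ∀ q ∈ S.M, ∀ β : Fin n → ℂ, 0 ≤ S.levi (Φ m) β q)
    (α : Fin n → (Fin n → ℂ) × ℂ → ℂ) (hα : ∀ j, S.CD 1 (α j))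
    (hcl : ∀ q ∈ S.M, ∀ j k, S.Db j (α k) q = S.Db k (α j) q)
    (hαb : ∃ (c : ℝ) (k : ℕ), ∀ q ∈ S.M, ∀ j, ‖α j q‖ ≤ c * (1 + p q.1) ^ k)
    (a : ℕ → (Fin n → ℂ) × ℂ → ℝ) (ha : ∀ m q, 0 ≤ a m q) (ham : ∀ m, AEMeasurable (a m) S.μ)
    (hab : ∀ m, ∀ q ∈ S.M, ∀ β : Fin n → ℂ,
      ‖∑ j, α j q * conj (β j)‖ ^ 2 ≤ a m q * S.levi (Φ m) β q)
    {A : ℝ} (hA0 : 0 ≤ A)
    (hA : ∀ m, ∫⁻ q, ENNReal.ofReal (a m q * Real.exp (-Φ m q)) ∂S.μ ≤ ENNReal.ofReal A) :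
    ∃ u : (Fin n → ℂ) × ℂ → ℂ, AEStronglyMeasurable u S.μ ∧
      (∀ m, ∫⁻ q, ENNReal.ofReal (‖u q‖ ^ 2 * Real.exp (-Φ m q)) ∂S.μ ≤ ENNReal.ofReal (2 * A)) ∧
      ∀ κ, S.IsTest κ → ∀ j, ∫ q, u q * S.Db j κ q ∂S.μ = - ∫ q, α j q * κ q ∂S.μ := by
  have hmeas := limE_meas hΦ hanti
  -- the operator
  have hmem : ∀ γ : TT S, MemLp (fun q => ((Real.sqrt (limE Φ q) : ℝ) : ℂ) *
      S.dvH (γ : Fin n → (Fin n → ℂ) × ℂ → ℂ) q) 2 S.μ := by
    intro γ
    refine (memLpH (divH_CD (hΦ 0) γ.2) (divH_supp γ.2)).of_le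
      (hmeas.mul (aestronglyMeasurable_of_CD (dvH_CD γ.2))) ?_
    filter_upwards with q
    rw [norm_mul, norm_mul, Complex.norm_real, Complex.norm_real, Real.norm_eq_abs,
      Real.norm_eq_abs, abs_of_nonneg (Real.sqrt_nonneg _), abs_of_pos (Real.exp_pos _)]
    refine mul_le_mul_of_nonneg_right ?_ (norm_nonneg _)
    calc Real.sqrt (limE Φ q) ≤ Real.sqrt (Real.exp (Φ 0 q)) := Real.sqrt_le_sqrt (limE_le Φ 0 q)
      _ = Real.exp (1 / 2 * Φ 0 q) := by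
          rw [← Real.exp_half]
          congr 1
          ring
  let L : TT S →ₗ[ℂ] Lp ℂ 2 S.μ :=
    { toFun := fun γ => (hmem γ).toLp _
      map_add' := by
        intro γ γ'
        rw [← MemLp.toLp_add]
        refine MemLp.toLp_congr _ _ ?_
        filter_upwards [ae_mem_M (S := S)] with q hq
        simp only [Pi.add_apply]
        rw [Submodule.coe_add, dvH_add γ.2 γ'.2 hq, mul_add]
      map_smul' := by
        intro c γ
        rw [RingHom.id_apply, ← MemLp.toLp_const_smul]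
        refine MemLp.toLp_congr _ _ ?_
        filter_upwards [ae_mem_M (S := S)] with q hq
        simp only [Pi.smul_apply, smul_eq_mul]
        rw [Submodule.coe_smul, dvH_smul γ.2 c hq]
        ring }
  have hL : ∀ γ : TT S, L γ =ᵐ[S.μ] fun q => ((Real.sqrt (limE Φ q) : ℝ) : ℂ) *
      S.dvH (γ : Fin n → (Fin n → ℂ) × ℂ → ℂ) q := fun γ => MemLp.coeFn_toLp (hmem γ)
  have hLn : ∀ γ : TT S, ‖L γ‖ ^ 2 =
      ∫ q, ‖S.dvH (γ : Fin n → (Fin n → ℂ) × ℂ → ℂ) q‖ ^ 2 * limE Φ q ∂S.μ := by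
    intro γ
    rw [norm_sq_Lp]
    refine integral_congr_ae ?_
    filter_upwards [hL γ] with q hq
    rw [hq, norm_mul, Complex.norm_real, Real.norm_eq_abs, abs_of_nonneg (Real.sqrt_nonneg _),
      mul_pow, Real.sq_sqrt (limE_nonneg _ _), mul_comm]
  -- the estimate
  have hest : ∀ γ : TT S, ‖lH hα γ‖ ^ 2 ≤ 2 * A * ‖L γ‖ ^ 2 := by
    intro γ
    rw [hLn, lH_eq, RCLike.norm_conj]
    have h1 : ∀ m, _ := fun m => main_est hp (hΦ m) (hΦb m) (hlevi m) α hα hcl hαb (a m) (ha m)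
      (ham m) (hab m) hA0 (hA m) γ γ.2
    have h2 : Tendsto (fun m => ∫ q, ‖S.dvH (γ : Fin n → (Fin n → ℂ) × ℂ → ℂ) q‖ ^ 2 *
        Real.exp (Φ m q) ∂S.μ) atTop
        (𝓝 (∫ q, ‖S.dvH (γ : Fin n → (Fin n → ℂ) × ℂ → ℂ) q‖ ^ 2 * limE Φ q ∂S.μ)) := by
      refine tendsto_integral_of_dominated_convergence
        (fun q => ‖S.dvH (γ : Fin n → (Fin n → ℂ) × ℂ → ℂ) q‖ ^ 2 * Real.exp (Φ 0 q))
        (fun m => (integrable_expH (hΦ m) γ.2).aestronglyMeasurable)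
        (integrable_expH (hΦ 0) γ.2) (fun m => ?_) ?_
      · filter_upwards [ae_mem_M (S := S)] with q hq
        rw [Real.norm_of_nonneg (by positivity)]
        have h3 : Φ m q ≤ Φ 0 q :=
          antitone_nat_of_succ_le (f := fun m => Φ m q) (fun m => hanti m q hq) (Nat.zero_le m)
        exact mul_le_mul_of_nonneg_left (Real.exp_le_exp.2 h3) (by positivity)
      · filter_upwards [ae_mem_M (S := S)] with q hq
        exact (limE_tendsto fun m => hanti m q hq).const_mul _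
    exact ge_of_tendsto' (h2.const_mul _) h1
  obtain ⟨U, hU, hUl⟩ := exists_riesz L (lH hα) (C := 2 * A) (by positivity) hest
  refine ⟨fun q => -(U q * ((Real.sqrt (limE Φ q) : ℝ) : ℂ)),
    ((Lp.aestronglyMeasurable U).mul hmeas).neg, ?_, fun κ hκ j => ?_⟩
  · intro m
    have hI : Integrable (fun q => ‖U q‖ ^ 2) S.μ :=
      (memLp_two_iff_integrable_sq_norm (Lp.aestronglyMeasurable U)).1 (Lp.memLp U)
    calc ∫⁻ q, ENNReal.ofReal (‖-(U q * ((Real.sqrt (limE Φ q) : ℝ) : ℂ))‖ ^ 2 *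
          Real.exp (-Φ m q)) ∂S.μ ≤ ∫⁻ q, ENNReal.ofReal (‖U q‖ ^ 2) ∂S.μ := by
          refine lintegral_mono fun q => ENNReal.ofReal_le_ofReal ?_
          rw [norm_neg, norm_mul, Complex.norm_real, Real.norm_eq_abs,
            abs_of_nonneg (Real.sqrt_nonneg _), mul_pow, Real.sq_sqrt (limE_nonneg _ _)]
          calc ‖U q‖ ^ 2 * limE Φ q * Real.exp (-Φ m q)
              ≤ ‖U q‖ ^ 2 * Real.exp (Φ m q) * Real.exp (-Φ m q) := by
                gcongr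
                exact limE_le Φ m q
            _ = ‖U q‖ ^ 2 := by
                rw [mul_assoc, ← Real.exp_add]
                simp
      _ ≤ ENNReal.ofReal (2 * A) := by
          rw [← ofReal_integral_eq_lintegral_ofReal hI (Eventually.of_forall fun q => by positivity),
            ← norm_sq_Lp]
          exact ENNReal.ofReal_le_ofReal hU
  · set γ : Fin n → (Fin n → ℂ) × ℂ → ℂ := fun i => if i = j then (fun q => conj (κ q)) else
      (fun _ => 0) with hγdef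
    have hγ : ∀ i, S.IsTest (γ i) := by
      intro i
      by_cases h : i = j
      · simp only [hγdef, h, if_true]
        exact hκ.conjH
      · simp only [hγdef, h, if_false]
        exact IsTest.zeroH
    have hγj : γ j = fun q => conj (κ q) := by simp [hγdef]
    have h1 := hUl ⟨γ, hγ⟩
    rw [lH_eq, L2.inner_def] at h1
    have h2 : ∀ q, ∑ i, α i q * conj (γ i q) = α j q * κ q := by
      intro q
      rw [Finset.sum_eq_single j]
      · rw [hγj, Complex.conj_conj]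
      · intro i _ hij
        simp [hγdef, hij]
      · simp
    have h3 : ∀ q, S.dvH γ q = conj (S.Db j κ q) := by
      intro q
      rw [dvH, Finset.sum_eq_single j]
      · rw [hγj, D_conj]
      · intro i _ hij
        have : γ i = fun _ => 0 := by simp [hγdef, hij]
        rw [this]
        exact dz_const 0
      · simp
    have h4 : (∫ q, inner ℂ (U q) ((L ⟨γ, hγ⟩ : Lp ℂ 2 S.μ) q) ∂S.μ : ℂ) =
        conj (∫ q, U q * ((Real.sqrt (limE Φ q) : ℝ) : ℂ) * S.Db j κ q ∂S.μ) := by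
      rw [← integral_conj]
      refine integral_congr_ae ?_
      filter_upwards [hL ⟨γ, hγ⟩] with q hq
      rw [hq, RCLike.inner_apply', h3, map_mul, map_mul, Complex.conj_ofReal]
      ring
    rw [h4] at h1
    have h5 := congrArg (starRingEnd ℂ) h1
    rw [Complex.conj_conj, Complex.conj_conj] at h5
    simp only [h2] at h5
    rw [h5, ← integral_neg]
    congr 1
    funext q
    ring

/-- Hoermander's theorem on a domain, decreasing sequences of weights. -/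
theorem hormander_dom_sing {V : Set (Fin n → ℂ)} (hV : IsOpen V) {p : (Fin n → ℂ) → ℝ} {C : ℝ}
    {k0 : ℕ} (hp : Exh V p C k0) {Φ : ℕ → (Fin n → ℂ) → ℝ} (hΦ : ∀ m, ContDiffOn ℝ 2 (Φ m) V)
    (hanti : ∀ m, ∀ z ∈ V, Φ (m + 1) z ≤ Φ m z)
    (hΦb : ∀ m, ∃ c : ℝ, ∀ z ∈ V, c ≤ Φ m z) (hlevi : ∀ m, ∀ z ∈ V, ∀ β, 0 ≤ leviF (Φ m) β z)
    (α : Fin n → (Fin n → ℂ) → ℂ) (hα : ∀ j, ContDiffOn ℝ 1 (α j) V)
    (hcl : ∀ z ∈ V, ∀ j k, dzb j (α k) z = dzb k (α j) z)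
    (hαb : ∃ (c : ℝ) (k : ℕ), ∀ z ∈ V, ∀ j, ‖α j z‖ ≤ c * (1 + p z) ^ k)
    (a : ℕ → (Fin n → ℂ) → ℝ) (ha : ∀ m z, 0 ≤ a m z)
    (ham : ∀ m, AEMeasurable (a m) (volume.restrict V))
    (hab : ∀ m, ∀ z ∈ V, ∀ β : Fin n → ℂ,
      ‖∑ j, α j z * conj (β j)‖ ^ 2 ≤ a m z * leviF (Φ m) β z)
    {A : ℝ} (hA0 : 0 ≤ A)
    (hA : ∀ m, ∫⁻ z in V, ENNReal.ofReal (a m z * Real.exp (-Φ m z)) ≤ ENNReal.ofReal A) :
    ∃ u : (Fin n → ℂ) → ℂ, AEStronglyMeasurable u (volume.restrict V) ∧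
      (∀ m, ∫⁻ z in V, ENNReal.ofReal (‖u z‖ ^ 2 * Real.exp (-Φ m z)) ≤ ENNReal.ofReal (2 * A)) ∧
      ∀ κ : (Fin n → ℂ) → ℂ, ContDiff ℝ 2 κ → HasCompactSupport κ → tsupport κ ⊆ V →
        ∀ j, ∫ z in V, u z * dzb j κ z = - ∫ z in V, α j z * κ z := by
  set S := one V hV with hS
  have hμ : S.μ = (volume.restrict V).map (fun z => (z, (0 : ℂ))) := one_μ
  have hmem : ∀ q ∈ S.M, q.1 ∈ V := fun q hq => hq.1
  obtain ⟨u, hu1, hu2, hu3⟩ := hormander_sing (S := S) (p := p) (C := C) (k0 := k0) hp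
    (Φ := fun m q => Φ m q.1)
    (fun m => one_CD (Complex.ofRealCLM.contDiff.comp_contDiffOn (hΦ m)))
    (fun m q hq => hanti m q.1 (hmem q hq))
    (by
      intro m
      obtain ⟨c, hc⟩ := hΦb m
      exact ⟨c, fun q hq => hc q.1 (hmem q hq)⟩)
    (fun m q hq β => hlevi m q.1 (hmem q hq) β)
    (fun j q => α j q.1) (fun j => one_CD (hα j))
    (fun q hq j k => hcl q.1 (hmem q hq) j k)
    (by
      obtain ⟨c, k, hc⟩ := hαb
      exact ⟨c, k, fun q hq j => hc q.1 (hmem q hq) j⟩)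
    (fun m q => a m q.1) (fun m q => ha m q.1)
    (by
      intro m
      rw [hμ]
      refine (measEmb.aemeasurable_map_iff).2 ?_
      exact ham m)
    (fun m q hq β => hab m q.1 (hmem q hq) β) hA0
    (by
      intro m
      rw [hμ, measEmb.lintegral_map]
      exact hA m)
  refine ⟨fun z => u (z, 0), ?_, ?_, ?_⟩
  · rw [hμ] at hu1
    exact (measEmb.aestronglyMeasurable_map_iff).1 hu1
  · intro m
    have h1 := hu2 m
    rw [hμ, measEmb.lintegral_map] at h1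
    exact h1
  · intro κ hκ hκc hκV j
    have ht : S.IsTest (fun q => κ q.1) := by
      refine ⟨one_CD hκ.contDiffOn, tsupport κ, hκc, hκV, fun q hq => ?_⟩
      exact image_eq_zero_of_notMem_tsupport hq
    have h1 := hu3 _ ht j
    rw [hμ, measEmb.integral_map, measEmb.integral_map] at h1
    exact h1

end Vale.Agent.P271.Dom
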