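import Vale.Agent.P271.H741.CoreDefs
import Vale.Agent.P271.H408.ChartM
import Vale.Agent.P271.GLOB.Core
import Vale.Agent.P271.Inst.GChart

/-!
P271 (helper884), block GLOB-B (H): finiteness of the integral of the weight over the part of a thin
tube around the orbit of `φ₀` which lies outside of a thinner tube, if the weight is locally
integrable at the points near `φ₀` which are not on the orbit.
-/

set_option linter.unusedSectionVars false

open MeasureTheory Filter Topology Metric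
open scoped ENNReal NNReal Vale.Agent.P271.Inst

namespace Vale.Agent.P271.H884

open Vale.Agent.P282.L2 Vale.Agent.P282.L2.Sheets Vale.Agent.P271.Sch Vale.Agent.P271.H741
  Vale.Agent.P271.Inst

/-! ### Compactness -/

/-- A locally integrable function is integrable over compact sets. -/
theorem lintegral_compact {m : ℕ} {K : Set (Fin m → ℂ)} (hK : IsCompact K)
    {g : (Fin m → ℂ) → ℝ≥0∞} (h : ∀ x ∈ K, LInt x g) : ∫⁻ x in K, g x < ⊤ := by
  refine hK.induction_on (p := fun s => ∫⁻ x in s, g x < ⊤) (by simp) ?_ ?_ ?_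
  · intro s t hst ht
    exact (lintegral_mono_set hst).trans_lt ht
  · intro s t hs ht
    exact (lintegral_union_le _ _ _).trans_lt (ENNReal.add_lt_top.2 ⟨hs, ht⟩)
  · intro x hx
    obtain ⟨U, hU, hI⟩ := h x hx
    exact ⟨U, mem_nhdsWithin_of_mem_nhds hU, hI⟩

variable {n : ℕ} {C : GCone n} [Algebra (Pol (n + 1)) C.K] [IsScalarTower ℂ (Pol (n + 1)) C.K]
  [FaithfulSMul (Pol (n + 1)) C.K] {V : Cov C} {φ₀ : C.Pt} {N' : ℕ} {S : Sheets (n + 1) N'}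
  {q : (Fin (n + 1) → ℂ) × ℂ}

/-! ### The weight on `M` -/

/-- The weight on `M`. -/
noncomputable def Wq (V : Cov C) (w : RWeight C) (q : (Fin (n + 1) → ℂ) × ℂ) : ℝ≥0∞ :=
  ∏ a, (ENNReal.ofReal (∑ j, ‖V.f (w.g a j) q‖ ^ 2)) ^ (-w.κ a)

theorem Wq_eq (hS : V.E.IsSheets S) (w : RWeight C) (hq : q ∈ S.M) :
    Wq V w q = w.val (V.pt hS hq) := rfl

/-- The factor of homogeneity. -/
noncomputable def cw (w : RWeight C) (t : ℂ) : ℝ≥0∞ :=
  ∏ a, (ENNReal.ofReal ((‖t‖ ^ w.d a) ^ 2)) ^ (-w.κ a)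

theorem cw_ne_zero (w : RWeight C) (t : ℂ) : cw w t ≠ 0 := by
  unfold cw
  refine Finset.prod_ne_zero_iff.2 fun a _ => ?_
  intro h
  rcases ENNReal.rpow_eq_zero_iff.1 h with h | h
  · linarith [w.nonneg a, h.2]
  · exact ENNReal.ofReal_ne_top h.1

theorem cw_ne_top (w : RWeight C) {t : ℂ} (ht : t ≠ 0) : cw w t ≠ ⊤ := by
  unfold cw
  refine ENNReal.prod_ne_top fun a _ => ?_
  refine ENNReal.rpow_ne_top_of_ne_zero ?_ ENNReal.ofReal_ne_top
  have : 0 < ‖t‖ := norm_pos_iff.2 ht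
  rw [Ne, ENNReal.ofReal_eq_zero, not_le]
  positivity

theorem Wq_act (hS : V.E.IsSheets S) (w : RWeight C) (hq : q ∈ S.M) {t : ℂ} (ht : t ≠ 0) :
    Wq V w (Glob.act V.N V.e t q) = cw w t * Wq V w q := by
  unfold Wq cw
  rw [← Finset.prod_mul_distrib]
  refine Finset.prod_congr rfl fun a _ => ?_
  rw [← ENNReal.mul_rpow_of_ne_top ENNReal.ofReal_ne_top ENNReal.ofReal_ne_top,
    ← ENNReal.ofReal_mul (by positivity), Finset.mul_sum]
  congr 2
  refine Finset.sum_congr rfl fun j _ => ?_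
  rw [V.f_act hS (w.mem a j) hq ht, norm_mul, norm_pow, mul_pow]

theorem f_aemeas (hS : V.E.IsSheets S) (a : C.R) : AEMeasurable (V.f a) S.μ :=
  (aestronglyMeasurable_of_CD ((V.f_holo hS a).CD 0)).aemeasurable

theorem Wq_aemeas (hS : V.E.IsSheets S) (w : RWeight C) : AEMeasurable (Wq V w) S.μ := by
  unfold Wq
  refine Finset.aemeasurable_fun_prod _ fun a _ => ?_
  refine AEMeasurable.pow_const ?_ _
  refine AEMeasurable.ennreal_ofReal ?_
  exact Finset.aemeasurable_fun_sum _ fun j _ => (f_aemeas hS (w.g a j)).norm.pow_const 2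

variable {T : Tube V φ₀}

theorem eM_aemeas (hS : V.E.IsSheets S) (T : Tube V φ₀) : AEMeasurable T.eM S.μ :=
  (aestronglyMeasurable_of_CD ((Prim.holo_ev hS T.isReg_eK).CD 0)).aemeasurable

/-- The integrand. -/
noncomputable def Gq (T : Tube V φ₀) (w : RWeight C) (l : ℤ) (q : (Fin (n + 1) → ℂ) × ℂ) : ℝ≥0∞ :=
  ENNReal.ofReal (‖T.eM q ^ l‖ ^ 2) * Wq V w q

theorem Gq_aemeas (hS : V.E.IsSheets S) (T : Tube V φ₀) (w : RWeight C) (l : ℤ) :
    AEMeasurable (Gq T w l) S.μ := by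
  unfold Gq
  refine AEMeasurable.mul ?_ (Wq_aemeas hS w)
  refine AEMeasurable.ennreal_ofReal ?_
  have h : Measurable fun z : ℂ => ‖z ^ l‖ ^ 2 := by fun_prop
  exact h.comp_aemeasurable (eM_aemeas hS T)

theorem Gq_act (hS : V.E.IsSheets S) (T : Tube V φ₀) (w : RWeight C) (l : ℤ) (hq : q ∈ S.M) {t : ℂ}
    (ht : t ≠ 0) : Gq T w l (Glob.act V.N V.e t q) =
      (ENNReal.ofReal (‖t ^ l‖ ^ 2) * cw w t) * Gq T w l q := by
  unfold Gq
  rw [T.eM_act hS hq ht, Wq_act hS w hq ht, mul_zpow, norm_mul, mul_pow,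
    ENNReal.ofReal_mul (by positivity)]
  ring

/-! ### Points -/

theorem eP_tact {χ : C.Pt} (h : T.Good χ) {t : ℂ} (ht : t ≠ 0) :
    T.eP (GCone.tact t χ) = t * T.eP χ := by
  unfold Tube.eP GCone.tact
  rw [pact_mem C.A t χ (T.x_mem T.i1), pact_mem C.A t χ (T.x_mem T.i0), T.hw, pow_succ]
  have h0 := h.1
  field_simp

theorem ξP_tact {χ : C.Pt} (h : T.Good χ) {t : ℂ} (ht : t ≠ 0) (j : Fin T.r) :
    T.ξP j (GCone.tact t χ) = T.ξP j χ := by
  unfold Tube.ξP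
  rw [eP_tact h ht]
  unfold GCone.tact
  rw [pact_mem C.A t χ (T.x_mem j), mul_inv, mul_pow, inv_pow]
  field_simp

theorem vP_tact {χ : C.Pt} (h : T.Good χ) {t : ℂ} (ht : t ≠ 0) :
    T.vP (GCone.tact t χ) = T.vP χ := by
  unfold Tube.vP
  refine Finset.sum_congr rfl fun j _ => ?_
  rw [ξP_tact h ht]

theorem vP_self : T.vP φ₀ = 0 := by
  unfold Tube.vP
  simp

theorem nv₀ (T : Tube V φ₀) : GCone.NV φ₀ :=
  ⟨T.w T.i1, by rw [T.hw]; exact Nat.succ_pos _, T.x T.i1, T.x_mem _, T.ne1⟩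

theorem contAt_eP {χ : C.Pt} (h : T.Good χ) : ContinuousAt T.eP χ := by
  unfold Tube.eP
  exact ((continuous_ev _).continuousAt).div ((continuous_ev _).continuousAt) h.1

theorem contAt_vP {χ : C.Pt} (h : T.Good χ) : ContinuousAt T.vP χ := by
  unfold Tube.vP
  refine tendsto_finsetSum _ fun j _ => ?_
  refine ContinuousAt.pow (ContinuousAt.norm (ContinuousAt.sub ?_ continuousAt_const)) 2
  unfold Tube.ξP
  exact ((continuous_ev _).continuousAt).mul (((contAt_eP h).inv₀ h.e_ne).pow _)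

theorem eventually_good {χ : C.Pt} (h : T.Good χ) : ∀ᶠ χ' in 𝓝 χ, T.Good χ' :=
  (eventually_ne h.1).and (eventually_ne h.2)

/-! ### The jacobian -/

theorem contOn_jc (V : Cov C) {φ : C.Pt} (c : Chart φ (n + 1)) :
    ContinuousOn (H408.jc V c) (ball 0 c.ρ) := by
  intro x hx
  have h1 : AnalyticAt ℂ (H408.Zc V c) x := by
    unfold H408.Zc
    exact AnalyticAt.pi fun i => c.holo (V.z i) x hx
  have h2 : ContinuousAt (fderiv ℂ (H408.Zc V c)) x := h1.fderiv.continuousAt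
  have h3 : ContinuousAt (fun x => (fderiv ℂ (H408.Zc V c) x).det) x :=
    ContinuousLinearMap.continuous_det.continuousAt.comp h2
  exact h3.continuousWithinAt

/-! ### The integral over the part of `M` in a chart at `φ₀` -/

theorem vv_aemeas (hS : V.E.IsSheets S) (T : Tube V φ₀) :
    AEMeasurable (Glob.vv T.ξM T.ξ0) S.μ :=
  Glob.vv_aemeas fun k => Prim.holo_ev hS (T.isReg_ξK k)

theorem null_le (hS : V.E.IsSheets S) (T : Tube V φ₀) (r1 : ℝ) :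
    NullMeasurableSet {q | r1 ≤ Glob.vv T.ξM T.ξ0 q} S.μ :=
  nullMeasurableSet_le aemeasurable_const (vv_aemeas hS T)

theorem G1_aemeas (hS : V.E.IsSheets S) (T : Tube V φ₀) (w : RWeight C) (l : ℤ) (r1 : ℝ) :
    AEMeasurable ({q | r1 ≤ Glob.vv T.ξM T.ξ0 q}.indicator (Gq T w l)) S.μ :=
  (Gq_aemeas hS T w l).indicator₀ (null_le hS T r1)

theorem chart_fin (hS : V.E.IsSheets S) (T : Tube V φ₀) (w : RWeight C) (l : ℤ)
    (c : Chart φ₀ (n + 1)) {eps : ℝ}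
    (hρ : closedBall (0 : Fin (n + 1) → ℂ) eps ⊆ ball 0 c.ρ)
    (hgood : ∀ x ∈ closedBall (0 : Fin (n + 1) → ℂ) eps, T.Good (c.ψ x))
    (hint : ∀ x ∈ closedBall (0 : Fin (n + 1) → ℂ) eps,
      (∀ t : ℂ, t ≠ 0 → GCone.tact t φ₀ ≠ c.ψ x) → LInt x fun y => w.val (c.ψ y))
    {r1 : ℝ} (hr1 : 0 < r1) :
    ∫⁻ q in H408.Qc V c '' (ball 0 eps ∩ H408.Bc V c),
      ({q | r1 ≤ Glob.vv T.ξM T.ξ0 q}.indicator (Gq T w l)) q ∂S.μ < ⊤ := by
  rw [H408.cov_B V c hS (isOpen_ball.inter (H408.isOpen_Bc V c)).measurableSet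
    Set.inter_subset_right (G1_aemeas hS T w l r1)]
  have hcψ : ∀ x ∈ closedBall (0 : Fin (n + 1) → ℂ) eps, ContinuousAt c.ψ x := fun x hx =>
    c.continuousAt_ψ (hρ hx)
  have h0 : ContinuousOn (fun x => T.vP (c.ψ x)) (closedBall 0 eps) := fun x hx =>
    (ContinuousAt.comp (f := c.ψ) (contAt_vP (hgood x hx)) (hcψ x hx)).continuousWithinAt
  have h0e : ContinuousOn (fun x => T.eP (c.ψ x) ^ l) (closedBall 0 eps) := fun x hx =>
    ((ContinuousAt.comp (f := c.ψ) (contAt_eP (hgood x hx)) (hcψ x hx)).zpow₀ l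
      (Or.inl (hgood x hx).e_ne)).continuousWithinAt
  set K : Set (Fin (n + 1) → ℂ) := closedBall 0 eps ∩ (fun x => T.vP (c.ψ x)) ⁻¹' Set.Ici r1
    with hK
  have hKcl : IsClosed K := h0.preimage_isClosed_of_isClosed isClosed_closedBall isClosed_Ici
  have hKc : IsCompact K := (isCompact_closedBall _ _).of_isClosed_subset hKcl
    Set.inter_subset_left
  have hKfin : ∫⁻ x in K, w.val (c.ψ x) < ⊤ := by
    refine lintegral_compact hKc fun x hx => hint x hx.1 fun t ht h => ?_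
    have h1 := vP_tact T.good₀ ht
    rw [h, vP_self] at h1
    have h2 : r1 ≤ T.vP (c.ψ x) := hx.2
    linarith
  obtain ⟨B1, hB1⟩ := (isCompact_closedBall (0 : Fin (n + 1) → ℂ) eps).exists_bound_of_continuousOn
    ((contOn_jc V c).mono hρ)
  obtain ⟨B2, hB2⟩ := (isCompact_closedBall (0 : Fin (n + 1) → ℂ) eps).exists_bound_of_continuousOn
    h0e
  have hpt : ∀ x ∈ ball (0 : Fin (n + 1) → ℂ) eps ∩ H408.Bc V c,
      ENNReal.ofReal (‖H408.jc V c x‖ ^ 2) *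
        ({q | r1 ≤ Glob.vv T.ξM T.ξ0 q}.indicator (Gq T w l)) (H408.Qc V c x) ≤
      (ENNReal.ofReal (B1 ^ 2) * ENNReal.ofReal (B2 ^ 2)) *
        K.indicator (fun x => w.val (c.ψ x)) x := by
    intro x hx
    have hxc : x ∈ closedBall (0 : Fin (n + 1) → ℂ) eps := ball_subset_closedBall hx.1
    have hq : H408.Qc V c x ∈ S.M := H408.Qc_mem V c hS hx.2
    have hpq : V.pt hS hq = c.ψ x := V.pt_qq hS hx.2.2
    by_cases hv : r1 ≤ Glob.vv T.ξM T.ξ0 (H408.Qc V c x)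
    · have hxK : x ∈ K := by
        refine ⟨hxc, ?_⟩
        show r1 ≤ T.vP (c.ψ x)
        rw [T.vv_eq hS hq, hpq] at hv
        exact hv
      rw [Set.indicator_of_mem (show H408.Qc V c x ∈ {q | r1 ≤ Glob.vv T.ξM T.ξ0 q} from hv),
        Set.indicator_of_mem hxK, Gq, T.eM_eq hS hq, Wq_eq hS w hq, hpq, ← mul_assoc]
      gcongr
      · exact hB1 x hxc
      · exact hB2 x hxc
    · rw [Set.indicator_of_notMem (show H408.Qc V c x ∉ {q | r1 ≤ Glob.vv T.ξM T.ξ0 q} from hv),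
        mul_zero]
      exact zero_le
  calc ∫⁻ x in ball 0 eps ∩ H408.Bc V c, ENNReal.ofReal (‖H408.jc V c x‖ ^ 2) *
        ({q | r1 ≤ Glob.vv T.ξM T.ξ0 q}.indicator (Gq T w l)) (H408.Qc V c x)
      ≤ ∫⁻ x in ball 0 eps ∩ H408.Bc V c, (ENNReal.ofReal (B1 ^ 2) * ENNReal.ofReal (B2 ^ 2)) *
        K.indicator (fun x => w.val (c.ψ x)) x :=
        setLIntegral_mono' (isOpen_ball.inter (H408.isOpen_Bc V c)).measurableSet hpt
    _ ≤ ∫⁻ x, (ENNReal.ofReal (B1 ^ 2) * ENNReal.ofReal (B2 ^ 2)) *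
        K.indicator (fun x => w.val (c.ψ x)) x := setLIntegral_le_lintegral _ _
    _ = (ENNReal.ofReal (B1 ^ 2) * ENNReal.ofReal (B2 ^ 2)) * ∫⁻ x in K, w.val (c.ψ x) := by
        rw [lintegral_const_mul' _ _ (ENNReal.mul_ne_top ENNReal.ofReal_ne_top
          ENNReal.ofReal_ne_top), lintegral_indicator hKcl.measurableSet]
    _ < ⊤ := ENNReal.mul_lt_top (ENNReal.mul_lt_top ENNReal.ofReal_lt_top
        ENNReal.ofReal_lt_top) hKfin

/-! ### Bounds on a thin tube -/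

/-- On the normalised part of a thin tube the function of degree one is bounded from above and
from below. -/
theorem exists_annulus (hS : V.E.IsSheets S) (T : Tube V φ₀) : ∃ r0 > (0 : ℝ), ∃ E0 > (0 : ℝ),
    ∃ E1 > (0 : ℝ), ∀ q ∈ S.M, 1 ≤ ‖T.X0 q‖ → ‖T.X0 q‖ ≤ 2 ^ (T.L * T.w T.i1) →
      Glob.vv T.ξM T.ξ0 q ≤ r0 → E0 ≤ ‖T.eM q‖ ∧ ‖T.eM q‖ ≤ E1 := by
  set m : ℝ := ‖T.ξP T.i1 φ₀‖ with hm
  have hm0 : 0 < m := norm_pos_iff.2 T.good₀.ξ1_ne
  set w1 : ℕ := T.w T.i1 with hw1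
  have hw1p : 0 < w1 := by rw [hw1, T.hw]; exact Nat.succ_pos _
  refine ⟨(m / 2) ^ 2, by positivity, min 1 (2 / (3 * m)), by positivity,
    max 1 (2 ^ w1 * (2 / m)), by positivity, fun q hq h1 h2 hv => ?_⟩
  have hg : T.Good (V.pt hS hq) := T.good_pt hS hq
  rw [T.vv_eq hS hq] at hv
  have h3 := T.vP_le hv T.i1
  rw [Real.sqrt_sq (by positivity)] at h3
  set ξ : ℂ := T.ξP T.i1 (V.pt hS hq) with hξ
  have hξ1 : m / 2 ≤ ‖ξ‖ := by
    have := norm_sub_norm_le (T.ξP T.i1 φ₀) ξ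
    rw [← hm, norm_sub_rev] at this
    linarith
  have hξ2 : ‖ξ‖ ≤ 3 * m / 2 := by
    have := norm_sub_norm_le ξ (T.ξP T.i1 φ₀)
    rw [← hm] at this
    linarith
  have hξ0 : 0 < ‖ξ‖ := by linarith
  -- the special generator
  have hL : T.L ≠ 0 := Nat.succ_ne_zero _
  set f1 : ℝ := ‖V.f (T.x T.i1) q‖ with hf1
  have hX : ‖T.X0 q‖ = f1 ^ T.L := by rw [T.X0_eq hS hq, norm_pow]
  rw [hX] at h1 h2
  have hf1a : 1 ≤ f1 := by
    by_contra hcon
    rw [not_le] at hcon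
    have := pow_lt_one₀ (norm_nonneg _) hcon hL
    linarith
  have hf1b : f1 ≤ 2 ^ w1 := by
    have h4 : (2 : ℝ) ^ (T.L * w1) = (2 ^ w1) ^ T.L := by rw [← pow_mul, mul_comm]
    rw [h4] at h2
    exact le_of_pow_le_pow_left₀ hL (by positivity) h2
  have h5 : f1 = ‖T.eM q‖ ^ w1 * ‖ξ‖ := by
    have := hg.x_eq T.i1
    rw [V.pt_apply] at this
    rw [hf1, this, norm_mul, norm_pow, T.eM_eq hS hq]
  set e : ℝ := ‖T.eM q‖ with he
  have he0 : 0 ≤ e := norm_nonneg _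
  constructor
  · by_contra hcon
    rw [not_le, lt_min_iff] at hcon
    have h6 : e ^ w1 ≤ e := pow_le_of_le_one he0 hcon.1.le hw1p.ne'
    have h7 : e ^ w1 * ‖ξ‖ < 2 / (3 * m) * (3 * m / 2) := by
      calc e ^ w1 * ‖ξ‖ ≤ e * ‖ξ‖ := by gcongr
        _ < 2 / (3 * m) * ‖ξ‖ := by
            exact mul_lt_mul_of_pos_right hcon.2 hξ0
        _ ≤ _ := by gcongr
    have h8 : 2 / (3 * m) * (3 * m / 2) = 1 := by field_simp
    rw [h8, ← h5] at h7
    linarith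
  · rcases le_or_gt e 1 with h6 | h6
    · exact h6.trans (le_max_left _ _)
    · refine le_trans ?_ (le_max_right _ _)
      have h7 : e ≤ e ^ w1 := le_self_pow₀ h6.le hw1p.ne'
      have h8 : e ^ w1 * (m / 2) ≤ 2 ^ w1 := by
        calc e ^ w1 * (m / 2) ≤ e ^ w1 * ‖ξ‖ := by gcongr
          _ = f1 := h5.symm
          _ ≤ _ := hf1b
      calc e ≤ e ^ w1 := h7
        _ = e ^ w1 * (m / 2) * (2 / m) := by field_simp
        _ ≤ 2 ^ w1 * (2 / m) := by gcongr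

/-! ### The main theorem -/

/-- **(H)** -/
theorem hypH (V : Cov C) {S : Sheets (n + 1) N'} (hS : V.E.IsSheets S) {φ₀ : C.Pt} (T : Tube V φ₀)
    (w : RWeight C)
    (hloc : ∀ᶠ φ in 𝓝 φ₀, (∀ t : ℂ, t ≠ 0 → GCone.tact t φ₀ ≠ φ) → IntAt (n + 1) φ w.val)
    (l : ℤ) : ∃ r0 > (0 : ℝ), ∀ r1 : ℝ, 0 < r1 →
      ∫⁻ q in {q | 1 ≤ ‖T.X0 q‖ ∧ ‖T.X0 q‖ ≤ 2 ^ (T.L * T.w T.i1) ∧
        r1 ≤ Glob.vv T.ξM T.ξ0 q ∧ Glob.vv T.ξM T.ξ0 q ≤ r0},
        ENNReal.ofReal (‖T.eM q ^ l‖ ^ 2) *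
          ∏ a, (ENNReal.ofReal (∑ j, ‖V.f (w.g a j) q‖ ^ 2)) ^ (-w.κ a) ∂S.μ < ⊤ := by
  classical
  obtain ⟨c⟩ := nonempty_chart (nv₀ T)
  -- a small ball
  have hev : ∀ᶠ x in 𝓝 (0 : Fin (n + 1) → ℂ), (x ∈ ball (0 : Fin (n + 1) → ℂ) c.ρ ∧
      T.Good (c.ψ x)) ∧ ((∀ t : ℂ, t ≠ 0 → GCone.tact t φ₀ ≠ c.ψ x) →
        LInt x fun y => w.val (c.ψ y)) := by
    have h1 := c.tendsto_ψ.eventually (eventually_good T.good₀)
    have h2 := c.tendsto_ψ.eventually hloc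
    filter_upwards [ball_mem_nhds (0 : Fin (n + 1) → ℂ) c.ρ_pos, h1, h2,
      c.eventually_intAt_iff] with x hx hx1 hx2 hx3
    exact ⟨⟨hx, hx1⟩, fun h => (hx3 _).1 (hx2 h)⟩
  obtain ⟨eps, heps, hsub⟩ := Metric.nhds_basis_closedBall.mem_iff.1 hev
  have hfin : ∀ r1 : ℝ, 0 < r1 → _ := fun r1 hr1 => chart_fin hS T w l c
    (fun x hx => (hsub hx).1.1) (fun x hx => (hsub hx).1.2) (fun x hx => (hsub hx).2) hr1
  set Q : Set ((Fin (n + 1) → ℂ) × ℂ) := H408.Qc V c '' (ball 0 eps ∩ H408.Bc V c) with hQ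
  have hQm : MeasurableSet Q := H408.measurable_image_Qc V c hS
    (isOpen_ball.inter (H408.isOpen_Bc V c)).measurableSet Set.inter_subset_right
  -- points near `φ₀` are in `Q`
  obtain ⟨F, d, hd, hF⟩ := H408.chart_nhd V c hS heps
  have hO := nhds_finset φ₀ F hd
  have ht := (tendsto_tact φ₀).eventually hO
  obtain ⟨pa, hpa, pb, hpb, hab⟩ := Filter.eventually_prod_iff.1 ht
  obtain ⟨δ, hδ, hball⟩ := Metric.mem_nhds_iff.1 hpa
  obtain ⟨r0a, hr0a, hnear⟩ := T.exists_near hpb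
  obtain ⟨r0b, hr0b, E0, hE0, E1, hE1, hann⟩ := exists_annulus hS T
  have hqQ : ∀ (q : (Fin (n + 1) → ℂ) × ℂ) (hq : q ∈ S.M),
      (∀ a ∈ F, ‖V.pt hS hq a - φ₀ a‖ < d) → q ∈ Q := by
    intro q hq h
    obtain ⟨x, hx, hxq⟩ := hF q hq h
    refine ⟨x, ⟨hx, ball_subset_closedBall.trans (fun y hy => (hsub hy).1.1) hx, ?_⟩, hxq⟩
    rw [← V.h_qq, hxq]
    exact Prim.ev_h_ne_zero hS hq
  -- the annulus
  set e0 : ℝ := ‖T.eP φ₀‖ with he0
  have he0p : 0 < e0 := norm_pos_iff.2 T.good₀.e_ne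
  set A : Set ℂ := {t | e0 / E1 ≤ ‖t‖ ∧ ‖t‖ ≤ e0 / E0} with hA
  have hAc : IsCompact A := by
    refine (isCompact_closedBall (0 : ℂ) (e0 / E0)).of_isClosed_subset ?_ ?_
    · exact (isClosed_le continuous_const continuous_norm).inter
        (isClosed_le continuous_norm continuous_const)
    · intro t ht
      rw [mem_closedBall_zero_iff]
      exact ht.2
  have hA0 : ∀ t ∈ A, t ≠ 0 := by
    rintro t ht rfl
    have h1 : e0 / E1 ≤ ‖(0 : ℂ)‖ := ht.1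
    rw [norm_zero] at h1
    have : 0 < e0 / E1 := by positivity
    linarith
  obtain ⟨s, hsA, hsf, hcov⟩ := hAc.finite_cover_balls (e := δ * (e0 / E1)) (by positivity)
  set s' : Finset ℂ := hsf.toFinset with hs'
  refine ⟨min r0a r0b, lt_min hr0a hr0b, fun r1 hr1 => ?_⟩
  set G1 : (Fin (n + 1) → ℂ) × ℂ → ℝ≥0∞ :=
    {q | r1 ≤ Glob.vv T.ξM T.ξ0 q}.indicator (Gq T w l) with hG1
  set Ψ : (Fin (n + 1) → ℂ) × ℂ → ℝ≥0∞ := Q.indicator G1 with hΨ
  have hG1m : AEMeasurable G1 S.μ := G1_aemeas hS T w l r1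
  have hΨm : AEMeasurable Ψ S.μ := hG1m.indicator hQm
  have hΨfin : ∫⁻ q, Ψ q ∂S.μ < ⊤ := by
    rw [hΨ, lintegral_indicator hQm]
    exact hfin r1 hr1
  set k : ℂ → ℝ≥0∞ := fun t => ENNReal.ofReal (‖t ^ l‖ ^ 2) * cw w t with hk
  have hk0 : ∀ t : ℂ, t ≠ 0 → k t ≠ 0 := by
    intro t ht
    refine mul_ne_zero ?_ (cw_ne_zero w t)
    have : 0 < ‖t ^ l‖ := norm_pos_iff.2 (zpow_ne_zero _ ht)
    rw [Ne, ENNReal.ofReal_eq_zero, not_le]
    positivity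
  have hkt : ∀ t : ℂ, t ≠ 0 → k t ≠ ⊤ := fun t ht =>
    ENNReal.mul_ne_top ENNReal.ofReal_ne_top (cw_ne_top w ht)
  set D : Set ((Fin (n + 1) → ℂ) × ℂ) := {q | 1 ≤ ‖T.X0 q‖ ∧
    ‖T.X0 q‖ ≤ 2 ^ (T.L * T.w T.i1) ∧ r1 ≤ Glob.vv T.ξM T.ξ0 q ∧
    Glob.vv T.ξM T.ξ0 q ≤ min r0a r0b} with hD
  have hXm : AEMeasurable (fun q => ‖T.X0 q‖) S.μ := (f_aemeas hS _).norm
  have hDm : NullMeasurableSet D S.μ :=
    (nullMeasurableSet_le aemeasurable_const hXm).inter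
      ((nullMeasurableSet_le hXm aemeasurable_const).inter
        ((null_le hS T r1).inter (nullMeasurableSet_le (vv_aemeas hS T) aemeasurable_const)))
  have hpt : ∀ᵐ q ∂S.μ, D.indicator (Gq T w l) q ≤
      ∑ τ ∈ s', (k τ)⁻¹ * Ψ (Glob.act V.N V.e τ q) := by
    filter_upwards [ae_mem_M (S := S)] with q hq
    by_cases hqD : q ∈ D
    swap
    · rw [Set.indicator_of_notMem hqD]
      exact zero_le
    rw [Set.indicator_of_mem hqD]
    obtain ⟨h1, h2, h3, h4⟩ := hqD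
    obtain ⟨h5, h6⟩ := hann q hq h1 h2 (h4.trans (min_le_right _ _))
    have heM0 : 0 < ‖T.eM q‖ := lt_of_lt_of_le hE0 h5
    set t : ℂ := T.eP φ₀ / T.eM q with htdef
    have htA : t ∈ A := by
      have hn : ‖t‖ = e0 / ‖T.eM q‖ := by rw [htdef, norm_div]
      refine ⟨?_, ?_⟩
      · rw [hn]; gcongr
      · rw [hn]; gcongr
    have ht0 : t ≠ 0 := hA0 t htA
    obtain ⟨τ, hτs, hτt⟩ : ∃ τ ∈ s, t ∈ ball τ (δ * (e0 / E1)) := by
      simpa using hcov htA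
    have hτ0 : τ ≠ 0 := hA0 τ (hsA hτs)
    have hclose : τ / t ∈ ball (1 : ℂ) δ := by
      rw [mem_ball, dist_eq_norm]
      have h7 : τ / t - 1 = (τ - t) / t := by field_simp
      rw [h7, norm_div, div_lt_iff₀ (norm_pos_iff.2 ht0)]
      rw [mem_ball, dist_eq_norm, norm_sub_rev] at hτt
      calc ‖τ - t‖ < δ * (e0 / E1) := hτt
        _ ≤ δ * ‖t‖ := by
            have := htA.1
            gcongr
    have hact := V.act_mem hS hq hτ0
    have hptt : V.pt hS hact = GCone.tact (τ / t) (GCone.tact t (V.pt hS hq)) := by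
      rw [V.pt_act hS hq hτ0]
      show pact C.A τ _ = pact C.A (τ / t) (pact C.A t _)
      rw [← pact_mul, div_mul_cancel₀ _ ht0]
    have hN : pb (GCone.tact t (V.pt hS hq)) := by
      have h8 := hnear (V.pt hS hq) (T.good_pt hS hq) (by
        rw [← T.vv_eq hS hq]; exact h4.trans (min_le_left _ _))
      rw [htdef, T.eM_eq hS hq]
      exact h8
    have hmemQ : Glob.act V.N V.e τ q ∈ Q := by
      refine hqQ _ hact ?_
      rw [hptt]
      exact hab (hball hclose) hN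
    have hvv : r1 ≤ Glob.vv T.ξM T.ξ0 (Glob.act V.N V.e τ q) := by
      have h9 : Glob.vv T.ξM T.ξ0 (Glob.act V.N V.e τ q) = Glob.vv T.ξM T.ξ0 q := by
        unfold Glob.vv
        refine Finset.sum_congr rfl fun j _ => ?_
        rw [T.ξM_act hS hq hτ0 j]
      rw [h9]
      exact h3
    have hΨq : Ψ (Glob.act V.N V.e τ q) = k τ * Gq T w l q := by
      rw [hΨ, Set.indicator_of_mem hmemQ, hG1, Set.indicator_of_mem
        (show Glob.act V.N V.e τ q ∈ {q | r1 ≤ Glob.vv T.ξM T.ξ0 q} from hvv),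
        Gq_act hS T w l hq hτ0]
    calc Gq T w l q = (k τ)⁻¹ * Ψ (Glob.act V.N V.e τ q) := by
          rw [hΨq, ← mul_assoc, ENNReal.inv_mul_cancel (hk0 τ hτ0) (hkt τ hτ0), one_mul]
      _ ≤ _ := Finset.single_le_sum (f := fun τ => (k τ)⁻¹ * Ψ (Glob.act V.N V.e τ q))
          (fun _ _ => zero_le) (hsf.mem_toFinset.2 hτs)
  have hτne : ∀ τ ∈ s', τ ≠ 0 := fun τ hτ => hA0 τ (hsA (hsf.mem_toFinset.1 hτ))
  have hinv : Glob.Inv S V.N V.e := V.inv hS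
  calc ∫⁻ q in D, Gq T w l q ∂S.μ = ∫⁻ q, D.indicator (Gq T w l) q ∂S.μ :=
        (lintegral_indicator₀ hDm _).symm
    _ ≤ ∫⁻ q, ∑ τ ∈ s', (k τ)⁻¹ * Ψ (Glob.act V.N V.e τ q) ∂S.μ := lintegral_mono_ae hpt
    _ = ∑ τ ∈ s', (k τ)⁻¹ * ∫⁻ q, Ψ (Glob.act V.N V.e τ q) ∂S.μ := by
        rw [lintegral_finsetSum' s' fun τ hτ =>
          (Glob.aemeasurable_act hinv (hτne τ hτ) hΨm).const_mul _]
        refine Finset.sum_congr rfl fun τ hτ => ?_
        exact lintegral_const_mul' _ _ (ENNReal.inv_ne_top.2 (hk0 τ (hτne τ hτ)))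
    _ < ⊤ := by
        refine ENNReal.sum_lt_top.2 fun τ hτ => ?_
        refine ENNReal.mul_lt_top (ENNReal.inv_lt_top.2 (pos_iff_ne_zero.2 (hk0 τ (hτne τ hτ)))) ?_
        rw [lintegral_act' hinv (hτne τ hτ)]
        exact ENNReal.mul_lt_top ENNReal.ofReal_lt_top hΨfin

end Vale.Agent.P271.H884
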