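import Vale.Agent.P271.H884.Holo

/-!
P271, block DOM: cut-off functions and one variable estimates.
-/

open MeasureTheory Filter Topology
open scoped ENNReal NNReal ComplexConjugate ContDiff

namespace Vale.Agent.P271.Dom

open Vale.Agent.P282.L2

variable {n : ℕ}

/-- The cut-off function: `0` for `t ≤ 0`, `1` for `1 ≤ t`. -/
noncomputable def th (t : ℝ) : ℝ := Real.smoothTransition t

theorem th_contDiff (m : ℕ) : ContDiff ℝ m th := Real.smoothTransition.contDiff

theorem th_nonneg (t : ℝ) : 0 ≤ th t := Real.smoothTransition.nonneg _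

theorem th_le_one (t : ℝ) : th t ≤ 1 := Real.smoothTransition.le_one _

theorem th_zero {t : ℝ} (h : t ≤ 0) : th t = 0 := Real.smoothTransition.zero_of_nonpos h

theorem th_one {t : ℝ} (h : 1 ≤ t) : th t = 1 := Real.smoothTransition.one_of_one_le h

theorem deriv_th_left {t : ℝ} (h : t < 0) : deriv th t = 0 := by
  have : th =ᶠ[𝓝 t] fun _ => (0 : ℝ) := by
    filter_upwards [Iio_mem_nhds h] with x hx using th_zero (le_of_lt hx)
  rw [this.deriv_eq]; simp

theorem deriv_th_right {t : ℝ} (h : 1 < t) : deriv th t = 0 := by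
  have : th =ᶠ[𝓝 t] fun _ => (1 : ℝ) := by
    filter_upwards [Ioi_mem_nhds h] with x hx using th_one (le_of_lt hx)
  rw [this.deriv_eq]; simp

theorem deriv_th_cont : Continuous (deriv th) := (th_contDiff 1).continuous_deriv (by norm_num)

theorem exists_th_bound : ∃ T : ℝ, 1 ≤ T ∧ ∀ t, |deriv th t| ≤ T := by
  obtain ⟨C, hC⟩ := (isCompact_Icc (a := (0 : ℝ)) (b := 1)).exists_bound_of_continuousOn
    deriv_th_cont.continuousOn
  refine ⟨max C 1, le_max_right _ _, fun t => ?_⟩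
  by_cases h1 : t < 0
  · rw [deriv_th_left h1]; simp
  by_cases h2 : 1 < t
  · rw [deriv_th_right h2]; simp
  · exact le_trans (hC t ⟨by linarith, by linarith⟩) (le_max_left _ _)

theorem th_hasDerivAt (t : ℝ) : HasDerivAt th (deriv th t) t :=
  ((th_contDiff 1).differentiable (by norm_num) t).hasDerivAt

/-- `∂̄` of a cut-off of a real function. -/
theorem dzb_th {u : (Fin n → ℂ) → ℝ} {z : Fin n → ℂ} (hu : DifferentiableAt ℝ u z) (j : Fin n) :
    dzb j (fun z => ((th (u z) : ℝ) : ℂ)) z =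
      ((deriv th (u z) : ℝ) : ℂ) * dzb j (fun z => (u z : ℂ)) z :=
  dzb_comp_real hu (th_hasDerivAt _).differentiableAt

theorem norm_sum_dzb_th {u : (Fin n → ℂ) → ℝ} {z : Fin n → ℂ} (hu : DifferentiableAt ℝ u z)
    (β : Fin n → ℂ) :
    ‖∑ j, dzb j (fun z => ((th (u z) : ℝ) : ℂ)) z * conj (β j)‖ ^ 2 =
      deriv th (u z) ^ 2 * ‖dF u β z‖ ^ 2 := by
  have h1 : ∑ j, dzb j (fun z => ((th (u z) : ℝ) : ℂ)) z * conj (β j) =
      ((deriv th (u z) : ℝ) : ℂ) * conj (dF u β z) := by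
    rw [← sum_dzb_conj, Finset.mul_sum]
    refine Finset.sum_congr rfl fun j _ => ?_
    rw [dzb_th hu]
    ring
  rw [h1, norm_mul, RCLike.norm_conj, Complex.norm_real, Real.norm_eq_abs, mul_pow, sq_abs]

theorem leviF_sub_const {u : (Fin n → ℂ) → ℝ} {z : Fin n → ℂ} (hu : ContDiffAt ℝ 2 u z) (L : ℝ)
    (β : Fin n → ℂ) : leviF (fun z => u z - L) β z = leviF u β z := by
  have h := leviF_add hu (contDiffAt_const (c := -L)) β
  rw [leviF_const, add_zero] at h
  simpa only [sub_eq_add_neg] using h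

theorem dF_sub_const {u : (Fin n → ℂ) → ℝ} {z : Fin n → ℂ} (hu : DifferentiableAt ℝ u z) (L : ℝ)
    (β : Fin n → ℂ) : dF (fun z => u z - L) β z = dF u β z := by
  have h := dF_add hu (differentiableAt_const (-L)) β
  rw [dF_const, add_zero] at h
  simpa only [sub_eq_add_neg] using h

/-- The function `2 c t + δ log (e^{2t} + e^{2L})`. -/
noncomputable def wf (c δ L t : ℝ) : ℝ := 2 * c * t + δ * Real.log (Real.exp (2 * t) + Real.exp (2 * L))

/-- Its derivative. -/
noncomputable def wf' (c δ L t : ℝ) : ℝ :=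
  2 * c + 2 * δ * (1 - Real.exp (2 * L) * (Real.exp (2 * t) + Real.exp (2 * L))⁻¹)

theorem wf_contDiff (c δ L : ℝ) (m : ℕ) : ContDiff ℝ m (wf c δ L) := by
  unfold wf
  refine (contDiff_const.mul contDiff_id).add (contDiff_const.mul (ContDiff.log ?_ ?_))
  · exact (Real.contDiff_exp.comp (contDiff_const.mul contDiff_id)).add contDiff_const
  · intro t
    positivity

theorem wf_hasDerivAt (c δ L t : ℝ) : HasDerivAt (wf c δ L) (wf' c δ L t) t := by
  have hpos : 0 < Real.exp (2 * t) + Real.exp (2 * L) := by positivity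
  have h1 : HasDerivAt (fun t : ℝ => 2 * t) 2 t := by simpa using (hasDerivAt_id t).const_mul 2
  have h2 : HasDerivAt (fun t => Real.exp (2 * t) + Real.exp (2 * L)) (Real.exp (2 * t) * 2) t := by
    simpa using h1.exp.add_const (Real.exp (2 * L))
  have h3 := h2.log hpos.ne'
  have h4 : HasDerivAt (fun t : ℝ => 2 * c * t) (2 * c) t := by
    simpa using (hasDerivAt_id t).const_mul (2 * c)
  have h5 := h4.add (h3.const_mul δ)
  refine h5.congr_deriv ?_
  unfold wf'
  field_simp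
  ring

theorem wf'_hasDerivAt (c δ L t : ℝ) : HasDerivAt (wf' c δ L)
    (4 * δ * Real.exp (2 * L) * Real.exp (2 * t) *
      ((Real.exp (2 * t) + Real.exp (2 * L)) ^ 2)⁻¹) t := by
  have hpos : 0 < Real.exp (2 * t) + Real.exp (2 * L) := by positivity
  have h1 : HasDerivAt (fun t : ℝ => 2 * t) 2 t := by simpa using (hasDerivAt_id t).const_mul 2
  have h2 : HasDerivAt (fun t => Real.exp (2 * t) + Real.exp (2 * L)) (Real.exp (2 * t) * 2) t := by
    simpa using h1.exp.add_const (Real.exp (2 * L))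
  have h3 : HasDerivAt (fun t => (Real.exp (2 * t) + Real.exp (2 * L))⁻¹)
      (-((Real.exp (2 * t) + Real.exp (2 * L)) ^ 2)⁻¹ * (Real.exp (2 * t) * 2)) t :=
    (hasDerivAt_inv hpos.ne').comp t h2
  have h4 := ((h3.const_mul (Real.exp (2 * L))).const_sub 1).const_mul (2 * δ)
  have h5 := h4.const_add (2 * c)
  refine h5.congr_deriv ?_
  ring

theorem wf'_nonneg {c δ : ℝ} (hc : 0 ≤ c) (hδ : 0 ≤ δ) (L t : ℝ) : 0 ≤ wf' c δ L t := by
  have hpos : 0 < Real.exp (2 * t) + Real.exp (2 * L) := by positivity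
  have h1 : Real.exp (2 * L) * (Real.exp (2 * t) + Real.exp (2 * L))⁻¹ ≤ 1 := by
    rw [← div_eq_mul_inv, div_le_one hpos]
    linarith [Real.exp_pos (2 * t)]
  have h2 : 0 ≤ 1 - Real.exp (2 * L) * (Real.exp (2 * t) + Real.exp (2 * L))⁻¹ := by linarith
  unfold wf'
  positivity

/-- Lower bound of the second derivative on the strip. -/
theorem wf''_ge {δ L t : ℝ} (hδ : 0 ≤ δ) (h0 : L ≤ t) (h1 : t ≤ L + 1) :
    δ * Real.exp (-2) ≤ 4 * δ * Real.exp (2 * L) * Real.exp (2 * t) *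
      ((Real.exp (2 * t) + Real.exp (2 * L)) ^ 2)⁻¹ := by
  have hb : 0 < Real.exp (2 * L) := Real.exp_pos _
  have hx : 0 < Real.exp (2 * t) := Real.exp_pos _
  have h2 : Real.exp (2 * L) ≤ Real.exp (2 * t) := Real.exp_le_exp.2 (by linarith)
  have h3 : Real.exp (2 * t) * Real.exp (-2) ≤ Real.exp (2 * L) := by
    rw [← Real.exp_add]
    exact Real.exp_le_exp.2 (by linarith)
  have he : 0 < Real.exp (-2 : ℝ) := Real.exp_pos _
  set b := Real.exp (2 * L)
  set x := Real.exp (2 * t)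
  set e := Real.exp (-2 : ℝ)
  have h4 : e * (x + b) ^ 2 ≤ 4 * b * x := by
    have h5 : (x + b) ^ 2 ≤ 4 * x ^ 2 := by nlinarith
    calc e * (x + b) ^ 2 ≤ e * (4 * x ^ 2) := by gcongr
      _ = 4 * (x * e) * x := by ring
      _ ≤ 4 * b * x := by gcongr
  rw [← div_eq_mul_inv, le_div_iff₀ (by positivity)]
  calc δ * e * (x + b) ^ 2 = δ * (e * (x + b) ^ 2) := by ring
    _ ≤ δ * (4 * b * x) := by gcongr
    _ = 4 * δ * b * x := by ring

theorem wf_mono {c δ : ℝ} (hc : 0 ≤ c) (hδ : 0 ≤ δ) {L s t : ℝ} (h : s ≤ t) :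
    wf c δ L s ≤ wf c δ L t := by
  unfold wf
  have h1 : Real.log (Real.exp (2 * s) + Real.exp (2 * L)) ≤
      Real.log (Real.exp (2 * t) + Real.exp (2 * L)) := by
    refine Real.log_le_log (by positivity) ?_
    have : Real.exp (2 * s) ≤ Real.exp (2 * t) := Real.exp_le_exp.2 (by linarith)
    linarith
  have h2 : c * s ≤ c * t := mul_le_mul_of_nonneg_left h hc
  have h3 := mul_le_mul_of_nonneg_left h1 hδ
  linarith

/-- Lower bound of the weight on `{L ≤ t}`. -/
theorem wf_ge {c δ : ℝ} (hc : 0 ≤ c) (hδ : 0 ≤ δ) {L t : ℝ} (h : L ≤ t) :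
    2 * (c + δ) * L ≤ wf c δ L t := by
  refine le_trans ?_ (wf_mono hc hδ h)
  unfold wf
  have h1 : 2 * L ≤ Real.log (Real.exp (2 * L) + Real.exp (2 * L)) := by
    rw [Real.le_log_iff_exp_le (by positivity)]
    linarith [Real.exp_pos (2 * L)]
  nlinarith [mul_le_mul_of_nonneg_left h1 hδ]

/-- Upper bound of the weight. -/
theorem wf_le {c δ L t : ℝ} (hδ : 0 ≤ δ) (hL : Real.exp (2 * L) ≤ 1 / 2)
    (h : t ≤ L) : wf c δ L t ≤ 2 * c * t := by
  unfold wf
  have h1 : Real.log (Real.exp (2 * t) + Real.exp (2 * L)) ≤ 0 := by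
    refine Real.log_nonpos (by positivity) ?_
    have : Real.exp (2 * t) ≤ Real.exp (2 * L) := Real.exp_le_exp.2 (by linarith)
    linarith
  have := mul_nonpos_of_nonneg_of_nonpos hδ h1
  linarith

theorem wf_le' {c δ L t : ℝ} (hc : 0 ≤ c) (hδ : 0 ≤ δ) (hδ1 : δ ≤ 1)
    (hL : Real.exp (2 * L) ≤ 1 / 2) (h : t ≤ 0) : wf c δ L t ≤ Real.log 2 := by
  unfold wf
  have h1 : Real.log (Real.exp (2 * t) + Real.exp (2 * L)) ≤ Real.log 2 := by
    refine Real.log_le_log (by positivity) ?_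
    have : Real.exp (2 * t) ≤ 1 := Real.exp_le_one_iff.2 (by linarith)
    linarith
  have h0 : 0 ≤ Real.log 2 := Real.log_nonneg (by norm_num)
  have h2 : δ * Real.log (Real.exp (2 * t) + Real.exp (2 * L)) ≤ δ * Real.log 2 :=
    mul_le_mul_of_nonneg_left h1 hδ
  have h3 : δ * Real.log 2 ≤ 1 * Real.log 2 := mul_le_mul_of_nonneg_right hδ1 h0
  have h4 : 2 * c * t ≤ 0 := by nlinarith
  linarith

end Vale.Agent.P271.Dom
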