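import Vale.Agent.P282.Bd3.B5

/-!
P271, block DOM: Hoermander's theorem (P282) on domains of `ℂⁿ`.
-/

open MeasureTheory Filter Topology
open scoped ENNReal NNReal ComplexConjugate

namespace Vale.Agent.P271.Dom

open Vale.Agent.P282.L2

variable {n : ℕ}

/-- The one-sheeted cover of an open set. -/
noncomputable def one (V : Set (Fin n → ℂ)) (hV : IsOpen V) : Sheets n 1 where
  V := V
  fib := fun _ => {0}
  isOpen := hV
  loc := fun z₀ hz => ⟨V, fun _ _ => 0, hV, hz, subset_rfl,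
    fun _ => differentiableOn_const _, fun z _ =>
      ⟨fun i j _ => Subsingleton.elim i j, by simp⟩⟩

/-- The Levi form of a real function. -/
noncomputable def leviF (Φ : (Fin n → ℂ) → ℝ) (β : Fin n → ℂ) (z : Fin n → ℂ) : ℝ :=
  (∑ j, ∑ k, dz j (dzb k (fun z => (Φ z : ℂ))) z * β j * conj (β k)).re

theorem one_levi {V : Set (Fin n → ℂ)} {hV : IsOpen V} (Φ : (Fin n → ℂ) → ℝ) (β : Fin n → ℂ)
    (q : (Fin n → ℂ) × ℂ) : (one V hV).levi (fun q => Φ q.1) β q = leviF Φ β q.1 := rfl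

theorem one_μ {V : Set (Fin n → ℂ)} {hV : IsOpen V} :
    (one V hV).μ = (volume.restrict V).map (fun z => (z, (0 : ℂ))) := by
  unfold Sheets.μ
  have h1 : (fun z : Fin n → ℂ => ∑ w ∈ (one V hV).fib z, Measure.dirac (z, w)) =
      fun z => Measure.dirac (z, (0 : ℂ)) := by
    funext z
    simp [one]
  rw [h1]
  exact Measure.bind_dirac_eq_map _ (by fun_prop)

theorem measEmb : MeasurableEmbedding (fun z : Fin n → ℂ => (z, (0 : ℂ))) :=
  measurableEmbedding_prod_mk_right 0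

theorem one_CD {V : Set (Fin n → ℂ)} {hV : IsOpen V} {k : ℕ} {f : (Fin n → ℂ) → ℂ}
    (hf : ContDiffOn ℝ k f V) : (one V hV).CD k (fun q => f q.1) :=
  Sheets.CD.fst hf

/-- Hoermander's theorem on a domain with an exhaustion function of polynomially bounded
gradient. -/
theorem hormander_dom {V : Set (Fin n → ℂ)} (hV : IsOpen V) {p : (Fin n → ℂ) → ℝ} {C : ℝ} {k0 : ℕ}
    (hp : Exh V p C k0) {Φ : (Fin n → ℂ) → ℝ} (hΦ : ContDiffOn ℝ 2 Φ V)
    (hΦb : ∃ c : ℝ, ∀ z ∈ V, c ≤ Φ z) (hlevi : ∀ z ∈ V, ∀ β, 0 ≤ leviF Φ β z)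
    (α : Fin n → (Fin n → ℂ) → ℂ) (hα : ∀ j, ContDiffOn ℝ 1 (α j) V)
    (hcl : ∀ z ∈ V, ∀ j k, dzb j (α k) z = dzb k (α j) z)
    (hαb : ∃ (c : ℝ) (k : ℕ), ∀ z ∈ V, ∀ j, ‖α j z‖ ≤ c * (1 + p z) ^ k)
    (a : (Fin n → ℂ) → ℝ) (ha : ∀ z, 0 ≤ a z) (ham : AEMeasurable a (volume.restrict V))
    (hab : ∀ z ∈ V, ∀ β : Fin n → ℂ, ‖∑ j, α j z * conj (β j)‖ ^ 2 ≤ a z * leviF Φ β z)
    {A : ℝ} (hA0 : 0 ≤ A)
    (hA : ∫⁻ z in V, ENNReal.ofReal (a z * Real.exp (-Φ z)) ≤ ENNReal.ofReal A) :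
    ∃ u : (Fin n → ℂ) → ℂ, AEStronglyMeasurable u (volume.restrict V) ∧
      ∫⁻ z in V, ENNReal.ofReal (‖u z‖ ^ 2 * Real.exp (-Φ z)) ≤ ENNReal.ofReal (2 * A) ∧
      ∀ κ : (Fin n → ℂ) → ℂ, ContDiff ℝ 2 κ → HasCompactSupport κ → tsupport κ ⊆ V →
        ∀ j, ∫ z in V, u z * dzb j κ z = - ∫ z in V, α j z * κ z := by
  set S := one V hV with hS
  have hμ : S.μ = (volume.restrict V).map (fun z => (z, (0 : ℂ))) := one_μ
  have hmem : ∀ q ∈ S.M, q.1 ∈ V := fun q hq => hq.1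
  obtain ⟨u, hu1, hu2, hu3⟩ := Sheets.hormander (S := S) (p := p) (C := C) (k0 := k0) hp
    (Φ := fun q => Φ q.1)
    (one_CD (Complex.ofRealCLM.contDiff.comp_contDiffOn hΦ))
    (by
      obtain ⟨c, hc⟩ := hΦb
      exact ⟨c, fun q hq => hc q.1 (hmem q hq)⟩)
    (fun q hq β => hlevi q.1 (hmem q hq) β)
    (fun j q => α j q.1) (fun j => one_CD (hα j))
    (fun q hq j k => hcl q.1 (hmem q hq) j k)
    (by
      obtain ⟨c, k, hc⟩ := hαb
      exact ⟨c, k, fun q hq j => hc q.1 (hmem q hq) j⟩)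
    (fun q => a q.1) (fun q => ha q.1)
    (by
      rw [hμ]
      refine (measEmb.aemeasurable_map_iff).2 ?_
      exact ham)
    (fun q hq β => hab q.1 (hmem q hq) β) hA0
    (by
      rw [hμ, measEmb.lintegral_map]
      exact hA)
  refine ⟨fun z => u (z, 0), ?_, ?_, ?_⟩
  · rw [hμ] at hu1
    exact (measEmb.aestronglyMeasurable_map_iff).1 hu1
  · rw [hμ, measEmb.lintegral_map] at hu2
    exact hu2
  · intro κ hκ hκc hκV j
    have ht : S.IsTest (fun q => κ q.1) := by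
      refine ⟨one_CD hκ.contDiffOn, tsupport κ, hκc, hκV, fun q hq => ?_⟩
      exact image_eq_zero_of_notMem_tsupport hq
    have h1 := hu3 _ ht j
    rw [hμ, measEmb.integral_map, measEmb.integral_map] at h1
    exact h1

end Vale.Agent.P271.Dom
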