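import Vale.Agent.P271.H884.Sing
import Vale.Agent.P271.H408.Weyl

/-!
P271, block DOM: holomorphic functions with `L²` estimates on domains with an exhaustion.
-/

open MeasureTheory Filter Topology
open scoped ENNReal NNReal ComplexConjugate ContDiff

namespace Vale.Agent.P271.Dom

open Vale.Agent.P282.L2

variable {n : ℕ}

/-- A weighted `L²` function is locally integrable. -/
theorem locInt_of_sq {V : Set (Fin n → ℂ)} (hV : IsOpen V) {Φ : (Fin n → ℂ) → ℝ}
    (hΦ : ContinuousOn Φ V) {u : (Fin n → ℂ) → ℂ} (hu : AEStronglyMeasurable u (volume.restrict V))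
    (hfin : ∫⁻ z in V, ENNReal.ofReal (‖u z‖ ^ 2 * Real.exp (-Φ z)) < ⊤) :
    LocallyIntegrableOn u V volume := by
  rw [locallyIntegrableOn_iff hV.isLocallyClosed]
  intro K hKV hK
  have hΦm : AEMeasurable Φ (volume.restrict V) := hΦ.aemeasurable hV.measurableSet
  have h1 : Integrable (fun z => ‖u z‖ ^ 2 * Real.exp (-Φ z)) (volume.restrict V) := by
    refine ⟨?_, ?_⟩
    · exact ((hu.norm.aemeasurable.pow_const 2).mul
        (Real.measurable_exp.comp_aemeasurable hΦm.neg)).aestronglyMeasurable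
    · rw [hasFiniteIntegral_iff_ofReal (Eventually.of_forall fun q => by positivity)]
      exact hfin
  have h2 : IntegrableOn (fun z => ‖u z‖ ^ 2 * Real.exp (-Φ z)) K volume :=
    IntegrableOn.mono_set (s := K) (t := V) h1 hKV
  have h3 : IntegrableOn (fun z => Real.exp (Φ z)) K volume :=
    ContinuousOn.integrableOn_compact hK (Real.continuous_exp.comp_continuousOn (hΦ.mono hKV))
  refine (h2.add h3).mono' (hu.mono_measure (Measure.restrict_mono hKV le_rfl))
    (Eventually.of_forall fun z => ?_)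
  simp only [Pi.add_apply]
  have h4 : Real.exp (-Φ z) * Real.exp (Φ z) = 1 := by rw [← Real.exp_add]; simp
  have h5 : 0 < Real.exp (-Φ z) := Real.exp_pos _
  have h6 : 0 < Real.exp (Φ z) := Real.exp_pos _
  set e := Real.exp (-Φ z)
  set f := Real.exp (Φ z)
  have h7 : 0 ≤ (‖u z‖ * e - 1) ^ 2 := sq_nonneg _
  have h8 : ‖u z‖ ^ 2 * e + f - ‖u z‖ * (2 * (e * f)) = (‖u z‖ * e - 1) ^ 2 * f := by
    have : ‖u z‖ ^ 2 * e = ‖u z‖ ^ 2 * e * (e * f) := by rw [h4]; ring
    rw [this]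
    ring
  rw [h4] at h8
  nlinarith [mul_nonneg h7 h6.le, norm_nonneg (u z)]

/-- Extension by zero of products with test functions. -/
theorem contDiff_mul_test {V : Set (Fin n → ℂ)} (hV : IsOpen V) {k : ℕ∞} {f κ : (Fin n → ℂ) → ℂ}
    (hf : ContDiffOn ℝ k f V) (hκ : ContDiff ℝ k κ) (hκV : tsupport κ ⊆ V) :
    ContDiff ℝ k (fun z => f z * κ z) := by
  rw [contDiff_iff_contDiffAt]
  intro z
  by_cases hz : z ∈ V
  · exact ((hf z hz).contDiffAt (hV.mem_nhds hz)).mul hκ.contDiffAt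
  · have h1 : z ∉ tsupport κ := fun h => hz (hκV h)
    have h2 : (fun z => f z * κ z) =ᶠ[𝓝 z] fun _ => 0 := by
      filter_upwards [(isClosed_tsupport κ).isOpen_compl.mem_nhds h1] with w hw
      rw [image_eq_zero_of_notMem_tsupport hw, mul_zero]
    exact contDiffAt_const.congr_of_eventuallyEq h2

/-- Integration by parts against a test function. -/
theorem ibp_dzb {V : Set (Fin n → ℂ)} (hV : IsOpen V) {s κ : (Fin n → ℂ) → ℂ}
    (hs : ContDiffOn ℝ 1 s V) (hκ : ContDiff ℝ 1 κ) (hκc : HasCompactSupport κ)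
    (hκV : tsupport κ ⊆ V) (j : Fin n) :
    Integrable (fun z => s z * dzb j κ z) (volume.restrict V) ∧
    Integrable (fun z => dzb j s z * κ z) (volume.restrict V) ∧
    ∫ z in V, s z * dzb j κ z = - ∫ z in V, dzb j s z * κ z := by
  have hc1 : Continuous (fun z => s z * dzb j κ z) := by
    have h0 : ContinuousOn (dzb j κ) Set.univ :=
      (contDiffOn_dzb (m := 0) isOpen_univ (by simpa using hκ.contDiffOn)).continuousOn
    rw [continuous_iff_continuousAt]
    intro z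
    by_cases hz : z ∈ V
    · exact ((hs.continuousOn z hz).continuousAt (hV.mem_nhds hz)).mul
        ((h0 z (Set.mem_univ z)).continuousAt Filter.univ_mem)
    · have h1 : z ∉ tsupport κ := fun h => hz (hκV h)
      have h2 : (fun z => s z * dzb j κ z) =ᶠ[𝓝 z] fun _ => 0 := by
        filter_upwards [(isClosed_tsupport κ).isOpen_compl.mem_nhds h1] with w hw
        rw [H408.dzb_eq_zero_of_notMem j hw, mul_zero]
      exact continuousAt_const.congr h2.symm
  have hc2 : Continuous (fun z => dzb j s z * κ z) := by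
    have h0 : ContinuousOn (dzb j s) V :=
      (contDiffOn_dzb (m := 0) hV (by simpa using hs)).continuousOn
    rw [continuous_iff_continuousAt]
    intro z
    by_cases hz : z ∈ V
    · exact ((h0 z hz).continuousAt (hV.mem_nhds hz)).mul hκ.continuous.continuousAt
    · have h1 : z ∉ tsupport κ := fun h => hz (hκV h)
      have h2 : (fun z => dzb j s z * κ z) =ᶠ[𝓝 z] fun _ => 0 := by
        filter_upwards [(isClosed_tsupport κ).isOpen_compl.mem_nhds h1] with w hw
        rw [image_eq_zero_of_notMem_tsupport hw, mul_zero]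
      exact continuousAt_const.congr h2.symm
  have hs1 : HasCompactSupport (fun z => s z * dzb j κ z) := by
    refine HasCompactSupport.intro hκc fun z hz => ?_
    rw [H408.dzb_eq_zero_of_notMem j hz, mul_zero]
  have hs2 : HasCompactSupport (fun z => dzb j s z * κ z) := by
    refine HasCompactSupport.intro hκc fun z hz => ?_
    rw [image_eq_zero_of_notMem_tsupport hz, mul_zero]
  have hi1 : Integrable (fun z => s z * dzb j κ z) volume := hc1.integrable_of_hasCompactSupport hs1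
  have hi2 : Integrable (fun z => dzb j s z * κ z) volume := hc2.integrable_of_hasCompactSupport hs2
  refine ⟨hi1.restrict, hi2.restrict, ?_⟩
  have e1 : ∫ z in V, s z * dzb j κ z = ∫ z, s z * dzb j κ z := by
    refine setIntegral_eq_integral_of_forall_compl_eq_zero fun z hz => ?_
    rw [H408.dzb_eq_zero_of_notMem j (fun h => hz (hκV h)), mul_zero]
  have e2 : ∫ z in V, dzb j s z * κ z = ∫ z, dzb j s z * κ z := by
    refine setIntegral_eq_integral_of_forall_compl_eq_zero fun z hz => ?_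
    rw [image_eq_zero_of_notMem_tsupport (fun h => hz (hκV h)), mul_zero]
  have hprod : ContDiff ℝ 1 (fun z => s z * κ z) := contDiff_mul_test (k := 1) hV hs hκ hκV
  have hprods : HasCompactSupport (fun z => s z * κ z) := by
    refine HasCompactSupport.intro hκc fun z hz => ?_
    rw [image_eq_zero_of_notMem_tsupport hz, mul_zero]
  have h0 := integral_dzb (j := j) hprod hprods
  have e3 : ∀ z, dzb j (fun z => s z * κ z) z = s z * dzb j κ z + dzb j s z * κ z := by
    intro z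
    by_cases hz : z ∈ V
    · rw [dzb_mul (((hs z hz).contDiffAt (hV.mem_nhds hz)).differentiableAt one_ne_zero)
        ((hκ.differentiable one_ne_zero) z)]
      ring
    · have h1 : z ∉ tsupport κ := fun h => hz (hκV h)
      have h2 : (fun z => s z * κ z) =ᶠ[𝓝 z] fun _ => 0 := by
        filter_upwards [(isClosed_tsupport κ).isOpen_compl.mem_nhds h1] with w hw
        rw [image_eq_zero_of_notMem_tsupport hw, mul_zero]
      rw [dzb_congr h2, dzb_const, H408.dzb_eq_zero_of_notMem j h1,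
        image_eq_zero_of_notMem_tsupport h1]
      ring
  simp only [e3] at h0
  rw [integral_add hi1 hi2] at h0
  rw [e1, e2]
  linear_combination h0

/-- From a solution of the `∂̄`-equation to a holomorphic function. -/
theorem holo_of_weak {V : Set (Fin n → ℂ)} (hV : IsOpen V) {Φ : (Fin n → ℂ) → ℝ}
    (hΦ : ContinuousOn Φ V) {s : (Fin n → ℂ) → ℂ} (hs : ContDiffOn ℝ 1 s V)
    {u : (Fin n → ℂ) → ℂ} (hu : AEStronglyMeasurable u (volume.restrict V))
    (hfin : ∫⁻ z in V, ENNReal.ofReal (‖u z‖ ^ 2 * Real.exp (-Φ z)) < ⊤)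
    (hw : ∀ κ : (Fin n → ℂ) → ℂ, ContDiff ℝ 2 κ → HasCompactSupport κ → tsupport κ ⊆ V →
        ∀ j, ∫ z in V, u z * dzb j κ z = - ∫ z in V, dzb j s z * κ z) :
    ∃ F : (Fin n → ℂ) → ℂ, DifferentiableOn ℂ F V ∧
      ∀ᵐ z ∂(volume.restrict V), u z = s z - F z := by
  have hli := locInt_of_sq hV hΦ hu hfin
  have hsl : LocallyIntegrableOn s V volume :=
    hs.continuousOn.locallyIntegrableOn hV.measurableSet
  obtain ⟨F, hF, hFe⟩ := H408.weyl_local hV (τ := fun z => s z - u z) (hsl.sub hli) (by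
    intro κ hκ hκc hκV j
    have hκ1 : ContDiff ℝ 1 κ := contDiff_infty.1 hκ 1
    have hκ2 : ContDiff ℝ 2 κ := contDiff_infty.1 hκ 2
    obtain ⟨hi1, hi2, h3⟩ := ibp_dzb hV hs hκ1 hκc hκV j
    have e1 : ∫ z, (s z - u z) * dzb j κ z = ∫ z in V, (s z - u z) * dzb j κ z := by
      symm
      refine setIntegral_eq_integral_of_forall_compl_eq_zero fun z hz => ?_
      rw [H408.dzb_eq_zero_of_notMem j (fun h => hz (hκV h)), mul_zero]
    have hi3 : Integrable (fun z => u z * dzb j κ z) (volume.restrict V) := by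
      have hc : ContinuousOn (dzb j κ) (tsupport κ) :=
        (contDiffOn_dzb (m := 0) isOpen_univ
          (by simpa using hκ1.contDiffOn)).continuousOn.mono (Set.subset_univ _)
      have h4 : IntegrableOn u (tsupport κ) volume := hli.integrableOn_compact_subset hκV hκc
      have h5 : IntegrableOn (fun z => u z * dzb j κ z) (tsupport κ) volume :=
        h4.mul_continuousOn hc hκc
      have h6 : Integrable (fun z => u z * dzb j κ z) volume := by
        refine (integrableOn_iff_integrable_of_support_subset ?_).1 h5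
        intro z hz
        by_contra h
        exact hz (by simp only [H408.dzb_eq_zero_of_notMem j h, mul_zero])
      exact h6.restrict
    rw [e1]
    simp only [sub_mul]
    rw [integral_sub hi1 hi3, h3, hw κ hκ2 hκc hκV j]
    ring)
  refine ⟨F, hF, ?_⟩
  filter_upwards [hFe] with z hz
  rw [← hz]
  ring

/-- Holomorphic functions close to a given smooth function (block D3). -/
theorem holo_dom {V : Set (Fin n → ℂ)} (hV : IsOpen V) {p : (Fin n → ℂ) → ℝ} {C : ℝ} {k0 : ℕ}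
    (hp : Exh V p C k0) {Φ : (Fin n → ℂ) → ℝ} (hΦ : ContDiffOn ℝ 2 Φ V)
    (hΦb : ∃ c : ℝ, ∀ z ∈ V, c ≤ Φ z) (hlevi : ∀ z ∈ V, ∀ β, 0 ≤ leviF Φ β z)
    {s : (Fin n → ℂ) → ℂ} (hs : ContDiffOn ℝ 2 s V)
    (hsb : ∃ (c : ℝ) (k : ℕ), ∀ z ∈ V, ∀ j, ‖dzb j s z‖ ≤ c * (1 + p z) ^ k)
    (a : (Fin n → ℂ) → ℝ) (ha : ∀ z, 0 ≤ a z) (ham : AEMeasurable a (volume.restrict V))
    (hab : ∀ z ∈ V, ∀ β : Fin n → ℂ, ‖∑ j, dzb j s z * conj (β j)‖ ^ 2 ≤ a z * leviF Φ β z)
    {A : ℝ} (hA0 : 0 ≤ A)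
    (hA : ∫⁻ z in V, ENNReal.ofReal (a z * Real.exp (-Φ z)) ≤ ENNReal.ofReal A) :
    ∃ F : (Fin n → ℂ) → ℂ, DifferentiableOn ℂ F V ∧
      ∫⁻ z in V, ENNReal.ofReal (‖F z - s z‖ ^ 2 * Real.exp (-Φ z)) ≤ ENNReal.ofReal (2 * A) := by
  obtain ⟨u, hu1, hu2, hu3⟩ := hormander_dom hV hp hΦ hΦb hlevi (fun j => dzb j s)
    (fun j => contDiffOn_dzb (m := 1) hV (by simpa using hs))
    (fun z hz j k => dzb_dzb_comm hV hs hz) hsb a ha ham hab hA0 hA
  obtain ⟨F, hF, hFe⟩ := holo_of_weak hV hΦ.continuousOn (hs.of_le (by norm_num)) hu1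
    (hu2.trans_lt ENNReal.ofReal_lt_top) hu3
  refine ⟨F, hF, ?_⟩
  refine le_trans (le_of_eq ?_) hu2
  refine lintegral_congr_ae ?_
  filter_upwards [hFe] with z hz
  rw [hz, norm_sub_rev]

/-- The same with a decreasing sequence of weights. -/
theorem holo_dom_sing {V : Set (Fin n → ℂ)} (hV : IsOpen V) {p : (Fin n → ℂ) → ℝ} {C : ℝ} {k0 : ℕ}
    (hp : Exh V p C k0) {Φ : ℕ → (Fin n → ℂ) → ℝ} (hΦ : ∀ m, ContDiffOn ℝ 2 (Φ m) V)
    (hanti : ∀ m, ∀ z ∈ V, Φ (m + 1) z ≤ Φ m z)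
    (hΦb : ∀ m, ∃ c : ℝ, ∀ z ∈ V, c ≤ Φ m z) (hlevi : ∀ m, ∀ z ∈ V, ∀ β, 0 ≤ leviF (Φ m) β z)
    {s : (Fin n → ℂ) → ℂ} (hs : ContDiffOn ℝ 2 s V)
    (hsb : ∃ (c : ℝ) (k : ℕ), ∀ z ∈ V, ∀ j, ‖dzb j s z‖ ≤ c * (1 + p z) ^ k)
    (a : ℕ → (Fin n → ℂ) → ℝ) (ha : ∀ m z, 0 ≤ a m z)
    (ham : ∀ m, AEMeasurable (a m) (volume.restrict V))
    (hab : ∀ m, ∀ z ∈ V, ∀ β : Fin n → ℂ,
      ‖∑ j, dzb j s z * conj (β j)‖ ^ 2 ≤ a m z * leviF (Φ m) β z)
    {A : ℝ} (hA0 : 0 ≤ A)
    (hA : ∀ m, ∫⁻ z in V, ENNReal.ofReal (a m z * Real.exp (-Φ m z)) ≤ ENNReal.ofReal A) :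
    ∃ F : (Fin n → ℂ) → ℂ, DifferentiableOn ℂ F V ∧
      ∀ m, ∫⁻ z in V, ENNReal.ofReal (‖F z - s z‖ ^ 2 * Real.exp (-Φ m z)) ≤
        ENNReal.ofReal (2 * A) := by
  obtain ⟨u, hu1, hu2, hu3⟩ := hormander_dom_sing hV hp hΦ hanti hΦb hlevi (fun j => dzb j s)
    (fun j => contDiffOn_dzb (m := 1) hV (by simpa using hs))
    (fun z hz j k => dzb_dzb_comm hV hs hz) hsb a ha ham hab hA0 hA
  obtain ⟨F, hF, hFe⟩ := holo_of_weak hV (hΦ 0).continuousOn (hs.of_le (by norm_num)) hu1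
    ((hu2 0).trans_lt ENNReal.ofReal_lt_top) hu3
  refine ⟨F, hF, fun m => ?_⟩
  refine le_trans (le_of_eq ?_) (hu2 m)
  refine lintegral_congr_ae ?_
  filter_upwards [hFe] with z hz
  rw [hz, norm_sub_rev]

end Vale.Agent.P271.Dom
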