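import Vale.Agent.P271.H884.Cut

/-!
P271, block LOC9 (analytic core): semicontinuity of integrability exponents from the `L²` method.
-/

open MeasureTheory Filter Topology
open scoped ENNReal NNReal ComplexConjugate ContDiff

namespace Vale.Agent.P271.Dom

open Vale.Agent.P282.L2

variable {n : ℕ}

/-- The choice of the level. -/
theorem exists_level {c : ℝ} (hc1 : c < 1) {K A v : ℝ} (hv : 0 < v) :
    ∃ L : ℝ, L ≤ 0 ∧ Real.exp (2 * L) ≤ 1 / 2 ∧
      8 * (K * Real.exp ((1 - c) * L) * A) + 32 * Real.exp (2 * L) * A ≤ v := by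
  have h1 : Tendsto (fun L : ℝ => Real.exp ((1 - c) * L)) atBot (𝓝 0) :=
    Real.tendsto_exp_atBot.comp (tendsto_id.const_mul_atBot (by linarith : 0 < 1 - c))
  have h2 : Tendsto (fun L : ℝ => Real.exp (2 * L)) atBot (𝓝 0) :=
    Real.tendsto_exp_atBot.comp (tendsto_id.const_mul_atBot (by norm_num : (0 : ℝ) < 2))
  have h3 : Tendsto (fun L : ℝ => 8 * (K * Real.exp ((1 - c) * L) * A) +
      32 * Real.exp (2 * L) * A) atBot (𝓝 (8 * (K * 0 * A) + 32 * 0 * A)) :=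
    (((h1.const_mul K).mul_const A).const_mul 8).add ((h2.const_mul 32).mul_const A)
  have h4 : 8 * (K * 0 * A) + 32 * 0 * A = (0 : ℝ) := by ring
  rw [h4] at h3
  have e1 : ∀ᶠ L : ℝ in atBot, Real.exp (2 * L) < 1 / 2 :=
    h2.eventually_lt_const (by norm_num)
  have e2 : ∀ᶠ L : ℝ in atBot, 8 * (K * Real.exp ((1 - c) * L) * A) +
      32 * Real.exp (2 * L) * A < v := h3.eventually_lt_const hv
  obtain ⟨L, h5, h6, h7⟩ := (e1.and (e2.and (eventually_le_atBot (0 : ℝ)))).exists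
  exact ⟨L, h7, h5.le, h6.le⟩

theorem lsc_r1 {L ψ g : ℝ} (h0 : 0 < g) (h1 : |Real.exp ψ - g| ≤ Real.exp L / 2)
    (h2 : ψ ≤ L + 1) : 1 ≤ 16 * Real.exp L ^ 2 * (g ^ 2)⁻¹ := by
  have heL0 := Real.exp_pos L
  have h3 : g ≤ Real.exp ψ + Real.exp L / 2 := by linarith [(abs_le.1 h1).1]
  have h4 : Real.exp ψ ≤ 3 * Real.exp L := by
    calc Real.exp ψ ≤ Real.exp (L + 1) := Real.exp_le_exp.2 h2
      _ = Real.exp 1 * Real.exp L := by rw [Real.exp_add]; ring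
      _ ≤ 3 * Real.exp L := by
          have := Real.exp_one_lt_d9
          gcongr
          linarith
  have h5 : g ≤ 4 * Real.exp L := by linarith
  rw [← div_eq_mul_inv, le_div_iff₀ (by positivity)]
  nlinarith

theorem lsc_r2 {L ψ g : ℝ} {F s : ℂ} {E : ℝ} (hE : 1 / 2 ≤ E) (hs : s = ((th (ψ - L) : ℝ) : ℂ))
    (h0 : 0 < g) (h1 : |Real.exp ψ - g| ≤ Real.exp L / 2) :
    ‖F - 1‖ ^ 2 ≤ 4 * (‖F - s‖ ^ 2 * E) + 32 * Real.exp L ^ 2 * (g ^ 2)⁻¹ := by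
  have h5 : ‖F - 1‖ ≤ ‖F - s‖ + ‖s - 1‖ := by
    calc ‖F - 1‖ = ‖(F - s) + (s - 1)‖ := by congr 1; ring
      _ ≤ _ := norm_add_le _ _
  have h6 : ‖s - 1‖ ^ 2 ≤ 16 * Real.exp L ^ 2 * (g ^ 2)⁻¹ := by
    by_cases h7 : ψ ≤ L + 1
    · refine le_trans ?_ (lsc_r1 h0 h1 h7)
      have h8 : ‖s - 1‖ ≤ 1 := by
        have h9 : s - 1 = ((th (ψ - L) - 1 : ℝ) : ℂ) := by
          rw [hs]
          push_cast
          ring
        rw [h9, Complex.norm_real, Real.norm_eq_abs, abs_le]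
        constructor <;> linarith [th_nonneg (ψ - L), th_le_one (ψ - L)]
      calc ‖s - 1‖ ^ 2 ≤ 1 ^ 2 := pow_le_pow_left₀ (norm_nonneg _) h8 2
        _ = 1 := one_pow 2
    · have h8 : s = 1 := by
        rw [hs, th_one (by linarith)]
        simp
      have h9 : 0 ≤ 16 * Real.exp L ^ 2 * (g ^ 2)⁻¹ := by positivity
      rw [h8, sub_self, norm_zero]
      simpa using h9
  have h10 : ‖F - 1‖ ^ 2 ≤ 2 * ‖F - s‖ ^ 2 + 2 * ‖s - 1‖ ^ 2 := by
    have h11 : ‖F - 1‖ ^ 2 ≤ (‖F - s‖ + ‖s - 1‖) ^ 2 :=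
      pow_le_pow_left₀ (norm_nonneg _) h5 2
    nlinarith [sq_nonneg (‖F - s‖ - ‖s - 1‖)]
  have h12 : 2 * ‖F - s‖ ^ 2 ≤ 4 * (‖F - s‖ ^ 2 * E) := by
    nlinarith [mul_le_mul_of_nonneg_left hE (sq_nonneg ‖F - s‖)]
  linarith

theorem lsc_r3 {c δ L ψ g : ℝ} {F s : ℂ} (hc1 : c < 1) (hδ : 0 ≤ δ)
    (hL1 : Real.exp (2 * L) ≤ 1 / 2) (hψ0 : ψ ≤ 0) (hs : s = ((th (ψ - L) : ℝ) : ℂ))
    (h0 : 0 < g) (h1 : |Real.exp ψ - g| ≤ Real.exp L / 2) (hF : 1 / 2 ≤ ‖F‖) :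
    Real.exp (-(2 * c * ψ)) ≤ 4 * (‖F - s‖ ^ 2 * Real.exp (-wf c δ L ψ)) +
      9 / 4 * (g ^ 2)⁻¹ := by
  have heL0 := Real.exp_pos L
  by_cases h2 : ψ ≤ L
  · have h3 : s = 0 := by
      rw [hs, th_zero (by linarith)]
      simp
    have h4 : Real.exp (-(2 * c * ψ)) ≤ Real.exp (-wf c δ L ψ) :=
      Real.exp_le_exp.2 (neg_le_neg (wf_le hδ hL1 h2))
    have h5 : 1 ≤ 4 * ‖F - s‖ ^ 2 := by
      rw [h3, sub_zero]
      nlinarith
    have h6 : 0 < Real.exp (-wf c δ L ψ) := Real.exp_pos _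
    have h7 : 0 ≤ 9 / 4 * (g ^ 2)⁻¹ := by positivity
    nlinarith
  · have h2' : L < ψ := not_le.1 h2
    have h3 : Real.exp L ≤ Real.exp ψ := Real.exp_le_exp.2 h2'.le
    have h4 : g ≤ 3 / 2 * Real.exp ψ := by linarith [(abs_le.1 h1).1]
    have h5 : Real.exp (-(2 * c * ψ)) ≤ Real.exp (-(2 * ψ)) := by
      refine Real.exp_le_exp.2 (neg_le_neg ?_)
      nlinarith
    have h6 : Real.exp (-(2 * ψ)) ≤ 9 / 4 * (g ^ 2)⁻¹ := by
      rw [Real.exp_neg, ← div_eq_mul_inv, le_div_iff₀ (by positivity)]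
      have h7 : Real.exp (2 * ψ) = Real.exp ψ ^ 2 := by
        rw [← Real.exp_nat_mul]
        norm_num
      rw [h7, inv_mul_le_iff₀ (by positivity)]
      have h8 : g ^ 2 ≤ (3 / 2 * Real.exp ψ) ^ 2 := pow_le_pow_left₀ h0.le h4 2
      linarith
    have h9 : 0 ≤ 4 * (‖F - s‖ ^ 2 * Real.exp (-wf c δ L ψ)) := by positivity
    linarith

/-- Semicontinuity of integrability exponents, smooth form. -/
theorem lsc_core {c : ℝ} (hc0 : 0 ≤ c) (hc1 : c < 1) {A : ℝ} (hA : 0 ≤ A) {r : ℝ} (hr : 0 < r) :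
    ∃ ε : ℝ, 0 < ε ∧ ∃ B : ℝ, 0 ≤ B ∧ ∀ (V : Set (Fin n → ℂ)) (_ : IsOpen V)
      (p : (Fin n → ℂ) → ℝ) (C : ℝ) (k0 : ℕ) (_ : Exh V p C k0) (ψ g : (Fin n → ℂ) → ℝ),
      ContDiffOn ℝ 2 ψ V → (∀ z ∈ V, ∀ β, 0 ≤ leviF ψ β z) → (∃ b : ℝ, ∀ z ∈ V, b ≤ ψ z) →
      (∀ z ∈ V, ψ z ≤ 0) →
      (∃ (c' : ℝ) (k : ℕ), ∀ z ∈ V, ∀ j, ‖dzb j (fun z => (ψ z : ℂ)) z‖ ≤ c' * (1 + p z) ^ k) →
      AEMeasurable g (volume.restrict V) →
      (∀ᵐ z ∂(volume.restrict V), 0 < g z ∧ |Real.exp (ψ z) - g z| ≤ ε) →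
      ∫⁻ z in V, ENNReal.ofReal ((g z ^ 2)⁻¹) ≤ ENNReal.ofReal A →
      ∀ V' : Set (Fin n → ℂ), MeasurableSet V' → (∀ z ∈ V', Metric.ball z r ⊆ V) →
        ∫⁻ z in V', ENNReal.ofReal (Real.exp (-(2 * c * ψ z))) ≤ ENNReal.ofReal B := by
  obtain ⟨T, hT1, hT⟩ := exists_th_bound
  have hT0 : 0 ≤ T := by linarith
  -- constants
  set δ : ℝ := (1 - c) / 2 with hδdef
  have hδ : 0 < δ := by rw [hδdef]; linarith
  have hδ1 : δ ≤ 1 := by rw [hδdef]; linarith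
  set D : ℝ := Real.exp 2 / δ with hDdef
  have hD : 0 < D := by positivity
  set K : ℝ := 16 * D * T ^ 2 with hKdef
  have hK : 0 ≤ K := by positivity
  set vb : ℝ≥0∞ := volume (Metric.ball (0 : Fin n → ℂ) r) with hvb
  have hvb0 : vb ≠ 0 := (Metric.measure_ball_pos volume _ hr).ne'
  have hvbt : vb ≠ ⊤ := measure_ball_lt_top.ne
  set v : ℝ := vb.toReal with hvdef
  have hv : 0 < v := ENNReal.toReal_pos hvb0 hvbt
  obtain ⟨L, hL0, hL1, hL2⟩ := exists_level (K := K) (A := A) hc1 (v := v / 4) (by positivity)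
  set eL : ℝ := Real.exp L with heL
  have heL0 : 0 < eL := Real.exp_pos _
  have heL2 : Real.exp (2 * L) = eL ^ 2 := by
    rw [heL, ← Real.exp_nat_mul]
    norm_num
  set M : ℝ := K * Real.exp ((1 - c) * L) * A with hM
  have hM0 : 0 ≤ M := by positivity
  have hMA : M ≤ K * A := by
    have h1 : Real.exp ((1 - c) * L) ≤ 1 :=
      Real.exp_le_one_iff.2 (mul_nonpos_of_nonneg_of_nonpos (by linarith) hL0)
    calc M = K * A * Real.exp ((1 - c) * L) := by rw [hM]; ring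
      _ ≤ K * A * 1 := by gcongr
      _ = K * A := mul_one _
  refine ⟨eL / 2, by positivity, 8 * (K * A) + 9 / 4 * A, by positivity, ?_⟩
  intro V hV p C k0 hp ψ g hψ hlevi hψb hψ0 hgr hgm hg hgA V' hV'm hV'
  have hVm := hV.measurableSet
  have hmem : ∀ᵐ z ∂(volume.restrict V), z ∈ V := ae_restrict_mem hVm
  -- the weight and the data
  set Φ : (Fin n → ℂ) → ℝ := fun z => wf c δ L (ψ z) with hΦdef
  set s : (Fin n → ℂ) → ℂ := fun z => ((th (ψ z - L) : ℝ) : ℂ) with hsdef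
  set a : (Fin n → ℂ) → ℝ := fun z => D * deriv th (ψ z - L) ^ 2 with hadef
  have hψc : ∀ z ∈ V, ContDiffAt ℝ 2 ψ z := fun z hz => (hψ z hz).contDiffAt (hV.mem_nhds hz)
  have hψd : ∀ z ∈ V, DifferentiableAt ℝ ψ z := fun z hz =>
    (hψc z hz).differentiableAt (by norm_num)
  have hΦ : ContDiffOn ℝ 2 Φ V := (wf_contDiff c δ L 2).comp_contDiffOn hψ
  have hlF : ∀ z ∈ V, ∀ β, leviF Φ β z = wf' c δ L (ψ z) * leviF ψ β z +
      4 * δ * Real.exp (2 * L) * Real.exp (2 * ψ z) *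
        ((Real.exp (2 * ψ z) + Real.exp (2 * L)) ^ 2)⁻¹ * ‖dF ψ β z‖ ^ 2 := by
    intro z hz β
    exact leviF_comp (φ := wf c δ L) (φ' := wf' c δ L) (hψc z hz)
      (Eventually.of_forall fun y => wf_hasDerivAt c δ L _) (wf'_hasDerivAt c δ L _) β
  have hlF0 : ∀ z ∈ V, ∀ β, 0 ≤ leviF Φ β z := by
    intro z hz β
    rw [hlF z hz β]
    have h1 := wf'_nonneg hc0 hδ.le L (ψ z)
    have h2 := hlevi z hz β
    positivity
  have hs : ContDiffOn ℝ 2 s V := by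
    have h1 : ContDiffOn ℝ 2 (fun z => th (ψ z - L)) V :=
      (th_contDiff 2).comp_contDiffOn (hψ.sub contDiffOn_const)
    exact Complex.ofRealCLM.contDiff.comp_contDiffOn h1
  have hsb : ∃ (c : ℝ) (k : ℕ), ∀ z ∈ V, ∀ j, ‖dzb j s z‖ ≤ c * (1 + p z) ^ k := by
    obtain ⟨c', k, hc'⟩ := hgr
    refine ⟨T * c', k, fun z hz j => ?_⟩
    have h1 : dzb j s z = ((deriv th (ψ z - L) : ℝ) : ℂ) *
        dzb j (fun z => ((ψ z - L : ℝ) : ℂ)) z :=
      dzb_th (u := fun z => ψ z - L) ((hψd z hz).sub_const L) j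
    have h2 : dzb j (fun z => ((ψ z - L : ℝ) : ℂ)) z = dzb j (fun z => (ψ z : ℂ)) z := by
      have h3 : (fun z => ((ψ z - L : ℝ) : ℂ)) = fun z => (ψ z : ℂ) + ((-L : ℝ) : ℂ) := by
        funext y
        push_cast
        ring
      have h4 : DifferentiableAt ℝ (fun z => (ψ z : ℂ)) z :=
        Complex.ofRealCLM.differentiableAt.comp z (hψd z hz)
      rw [h3, dzb_add h4 (differentiableAt_const _), dzb_const, add_zero]
    rw [h1, h2, norm_mul, Complex.norm_real, Real.norm_eq_abs, mul_assoc]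
    exact mul_le_mul (hT _) (hc' z hz j) (norm_nonneg _) hT0
  have hpt : ∀ z, deriv th (ψ z - L) ≠ 0 → L ≤ ψ z ∧ ψ z ≤ L + 1 := by
    intro z hz
    constructor
    · by_contra h
      exact hz (deriv_th_left (by linarith))
    · by_contra h
      exact hz (deriv_th_right (by linarith))
  have hab : ∀ z ∈ V, ∀ β : Fin n → ℂ, ‖∑ j, dzb j s z * conj (β j)‖ ^ 2 ≤
      a z * leviF Φ β z := by
    intro z hz β
    rw [hsdef, norm_sum_dzb_th (u := fun z => ψ z - L) ((hψd z hz).sub_const L) β,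
      dF_sub_const (hψd z hz)]
    by_cases h0 : deriv th (ψ z - L) = 0
    · simp [hadef, h0]
    obtain ⟨h1, h2⟩ := hpt z h0
    have h3 := wf''_ge hδ.le h1 h2
    have h4 : δ * Real.exp (-2) * ‖dF ψ β z‖ ^ 2 ≤ leviF Φ β z := by
      rw [hlF z hz β]
      have h5 := wf'_nonneg hc0 hδ.le L (ψ z)
      have h6 := hlevi z hz β
      have h7 := mul_le_mul_of_nonneg_right h3 (sq_nonneg ‖dF ψ β z‖)
      have h8 := mul_nonneg h5 h6
      linarith
    have h9 : D * (δ * Real.exp (-2)) = 1 := by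
      rw [hDdef, Real.exp_neg]
      field_simp
    calc deriv th (ψ z - L) ^ 2 * ‖dF ψ β z‖ ^ 2
        = deriv th (ψ z - L) ^ 2 * (D * (δ * Real.exp (-2) * ‖dF ψ β z‖ ^ 2)) := by
          rw [← mul_assoc D, h9, one_mul]
      _ ≤ deriv th (ψ z - L) ^ 2 * (D * leviF Φ β z) := by gcongr
      _ = a z * leviF Φ β z := by rw [hadef]; ring
  -- the pointwise bound of `g`
  have hg2 : ∀ᵐ z ∂(volume.restrict V), ψ z ≤ L + 1 → 1 ≤ 16 * eL ^ 2 * (g z ^ 2)⁻¹ := by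
    filter_upwards [hg] with z hz h1
    exact lsc_r1 hz.1 hz.2 h1
  have haΦ : ∀ᵐ z ∂(volume.restrict V), a z * Real.exp (-Φ z) ≤
      K * Real.exp ((1 - c) * L) * (g z ^ 2)⁻¹ := by
    filter_upwards [hg2, hg] with z hz hgz
    have hg0 : 0 < (g z ^ 2)⁻¹ := by
      have := hgz.1
      positivity
    by_cases h0 : deriv th (ψ z - L) = 0
    · simp only [hadef, h0]
      have : 0 ≤ K * Real.exp ((1 - c) * L) * (g z ^ 2)⁻¹ := by positivity
      simpa using this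
    obtain ⟨h1, h2⟩ := hpt z h0
    have h3 : deriv th (ψ z - L) ^ 2 ≤ T ^ 2 := by
      rw [← sq_abs]
      exact pow_le_pow_left₀ (abs_nonneg _) (hT _) 2
    have h4 : Real.exp (-Φ z) ≤ Real.exp (-(2 * (c + δ) * L)) := by
      refine Real.exp_le_exp.2 (neg_le_neg ?_)
      exact wf_ge hc0 hδ.le h1
    have h5 : Real.exp (-(2 * (c + δ) * L)) * eL ^ 2 = Real.exp ((1 - c) * L) := by
      rw [← heL2, ← Real.exp_add]
      congr 1
      rw [hδdef]
      ring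
    calc a z * Real.exp (-Φ z) ≤ (D * T ^ 2) * Real.exp (-(2 * (c + δ) * L)) := by
          refine mul_le_mul ?_ h4 (Real.exp_pos _).le (by positivity)
          exact mul_le_mul_of_nonneg_left h3 hD.le
      _ = (D * T ^ 2) * Real.exp (-(2 * (c + δ) * L)) * 1 := by ring
      _ ≤ (D * T ^ 2) * Real.exp (-(2 * (c + δ) * L)) * (16 * eL ^ 2 * (g z ^ 2)⁻¹) := by
          refine mul_le_mul_of_nonneg_left (hz h2) (by positivity)
      _ = 16 * D * T ^ 2 * (Real.exp (-(2 * (c + δ) * L)) * eL ^ 2) * (g z ^ 2)⁻¹ := by ring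
      _ = K * Real.exp ((1 - c) * L) * (g z ^ 2)⁻¹ := by rw [h5, hKdef]
  have hIA : ∀ t : ℝ, 0 ≤ t → ∫⁻ z in V, ENNReal.ofReal (t * (g z ^ 2)⁻¹) ≤
      ENNReal.ofReal (t * A) := by
    intro t ht
    calc ∫⁻ z in V, ENNReal.ofReal (t * (g z ^ 2)⁻¹)
        = ∫⁻ z in V, ENNReal.ofReal t * ENNReal.ofReal ((g z ^ 2)⁻¹) := by
          simp only [ENNReal.ofReal_mul ht]
      _ = ENNReal.ofReal t * ∫⁻ z in V, ENNReal.ofReal ((g z ^ 2)⁻¹) :=
          lintegral_const_mul' _ _ ENNReal.ofReal_ne_top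
      _ ≤ ENNReal.ofReal t * ENNReal.ofReal A := by gcongr
      _ = ENNReal.ofReal (t * A) := (ENNReal.ofReal_mul ht).symm
  obtain ⟨F, hF, hFs⟩ := holo_dom hV hp hΦ
    (by
      obtain ⟨b, hb⟩ := hψb
      exact ⟨wf c δ L b, fun z hz => wf_mono hc0 hδ.le (hb z hz)⟩)
    hlF0 hs hsb a (fun z => by positivity)
    (by
      have h1 : ContinuousOn a V := by
        refine continuousOn_const.mul (ContinuousOn.pow ?_ 2)
        exact deriv_th_cont.comp_continuousOn (hψ.continuousOn.sub continuousOn_const)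
      exact h1.aemeasurable hVm)
    hab hM0
    (by
      refine (lintegral_mono_ae ?_).trans (hIA (K * Real.exp ((1 - c) * L)) (by positivity))
      filter_upwards [haΦ] with z hz
      exact ENNReal.ofReal_le_ofReal hz)
  -- `F` is close to `1`
  have hF1 : ∫⁻ z in V, ‖F z - 1‖ₑ ^ 2 ≤ ENNReal.ofReal (v / 4) := by
    have h1 : ∀ᵐ z ∂(volume.restrict V), ‖F z - 1‖ₑ ^ 2 ≤
        ENNReal.ofReal 4 * ENNReal.ofReal (‖F z - s z‖ ^ 2 * Real.exp (-Φ z)) +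
          ENNReal.ofReal (32 * eL ^ 2 * (g z ^ 2)⁻¹) := by
      filter_upwards [hg2, hg, hmem] with z hz hgz hzV
      have hg0 : 0 < (g z ^ 2)⁻¹ := by
        have := hgz.1
        positivity
      rw [← ofReal_norm, ← ENNReal.ofReal_pow (norm_nonneg _),
        ← ENNReal.ofReal_mul (by norm_num), ← ENNReal.ofReal_add (by positivity) (by positivity)]
      refine ENNReal.ofReal_le_ofReal ?_
      have h2 : (1 / 2 : ℝ) ≤ Real.exp (-Φ z) := by
        have h3 := wf_le' hc0 hδ.le hδ1 hL1 (hψ0 z hzV)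
        have h4 : Real.exp (-Real.log 2) ≤ Real.exp (-Φ z) := Real.exp_le_exp.2 (neg_le_neg h3)
        rwa [Real.exp_neg, Real.exp_log (by norm_num), ← one_div] at h4
      exact lsc_r2 h2 rfl hgz.1 hgz.2
    calc ∫⁻ z in V, ‖F z - 1‖ₑ ^ 2
        ≤ ∫⁻ z in V, (ENNReal.ofReal 4 * ENNReal.ofReal (‖F z - s z‖ ^ 2 * Real.exp (-Φ z)) +
          ENNReal.ofReal (32 * eL ^ 2 * (g z ^ 2)⁻¹)) := lintegral_mono_ae h1
      _ = ENNReal.ofReal 4 * (∫⁻ z in V, ENNReal.ofReal (‖F z - s z‖ ^ 2 * Real.exp (-Φ z))) +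
          ∫⁻ z in V, ENNReal.ofReal (32 * eL ^ 2 * (g z ^ 2)⁻¹) := by
          rw [lintegral_add_right' _ (by fun_prop), lintegral_const_mul' _ _ ENNReal.ofReal_ne_top]
      _ ≤ ENNReal.ofReal 4 * ENNReal.ofReal (2 * M) + ENNReal.ofReal (32 * eL ^ 2 * A) := by
          gcongr
          exact hIA (32 * eL ^ 2) (by positivity)
      _ = ENNReal.ofReal (8 * M + 32 * eL ^ 2 * A) := by
          rw [← ENNReal.ofReal_mul (by norm_num), ← ENNReal.ofReal_add (by positivity)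
            (by positivity)]
          congr 1
          ring
      _ ≤ ENNReal.ofReal (v / 4) := by
          refine ENNReal.ofReal_le_ofReal ?_
          rw [← heL2]
          exact hL2
  have hFge : ∀ z ∈ V', 1 / 2 ≤ ‖F z‖ := by
    intro z hz
    have h1 : DifferentiableOn ℂ (fun z => F z - 1) (Metric.ball z r) :=
      (hF.mono (hV' z hz)).sub_const 1
    have h2 := H408.enorm_sq_mul_volume_le h1
    have h3 : ∫⁻ w in Metric.ball z r, ‖F w - 1‖ₑ ^ 2 ≤ ENNReal.ofReal (v / 4) :=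
      (lintegral_mono_set (hV' z hz)).trans hF1
    have h4 : volume (Metric.ball z r) = vb := by
      rw [hvb]
      exact Measure.addHaar_ball_center _ _ _
    rw [h4] at h2
    have h5 : ‖F z - 1‖ₑ ^ 2 * vb ≤ ENNReal.ofReal (v / 4) := h2.trans h3
    have h6 : ENNReal.ofReal (‖F z - 1‖ ^ 2 * v) ≤ ENNReal.ofReal (v / 4) := by
      rw [ENNReal.ofReal_mul (by positivity), ENNReal.ofReal_pow (norm_nonneg _),
        ofReal_norm, hvdef, ENNReal.ofReal_toReal hvbt]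
      exact h5
    have h7 : ‖F z - 1‖ ^ 2 * v ≤ v / 4 :=
      (ENNReal.ofReal_le_ofReal_iff (by positivity)).1 h6
    have h8 : ‖F z - 1‖ ^ 2 ≤ 1 / 4 := by
      by_contra h
      have h9 : 1 / 4 < ‖F z - 1‖ ^ 2 := not_le.1 h
      nlinarith
    have h10 : ‖F z - 1‖ ≤ 1 / 2 := by
      have h11 : ‖F z - 1‖ ^ 2 ≤ (1 / 2) ^ 2 := by linarith
      exact (sq_le_sq₀ (norm_nonneg _) (by norm_num)).1 h11
    have h12 : ‖(1 : ℂ)‖ ≤ ‖F z‖ + ‖F z - 1‖ := by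
      calc ‖(1 : ℂ)‖ = ‖F z - (F z - 1)‖ := by congr 1; ring
        _ ≤ _ := norm_sub_le _ _
    rw [norm_one] at h12
    linarith
  -- conclusion
  have hV'V : V' ⊆ V := fun z hz => hV' z hz (Metric.mem_ball_self hr)
  have hfin : ∀ᵐ z ∂(volume.restrict V'), ENNReal.ofReal (Real.exp (-(2 * c * ψ z))) ≤
      ENNReal.ofReal 4 * ENNReal.ofReal (‖F z - s z‖ ^ 2 * Real.exp (-Φ z)) +
        ENNReal.ofReal (9 / 4 * (g z ^ 2)⁻¹) := by
    filter_upwards [ae_restrict_of_ae_restrict_of_subset hV'V hg, ae_restrict_mem hV'm]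
      with z hgz hzV'
    have hg0 := hgz.1
    rw [← ENNReal.ofReal_mul (by norm_num), ← ENNReal.ofReal_add (by positivity) (by positivity)]
    refine ENNReal.ofReal_le_ofReal ?_
    exact lsc_r3 hc1 hδ.le hL1 (hψ0 z (hV'V hzV')) rfl hg0 hgz.2 (hFge z hzV')
  calc ∫⁻ z in V', ENNReal.ofReal (Real.exp (-(2 * c * ψ z)))
      ≤ ∫⁻ z in V', (ENNReal.ofReal 4 * ENNReal.ofReal (‖F z - s z‖ ^ 2 * Real.exp (-Φ z)) +
        ENNReal.ofReal (9 / 4 * (g z ^ 2)⁻¹)) := lintegral_mono_ae hfin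
    _ ≤ ∫⁻ z in V, (ENNReal.ofReal 4 * ENNReal.ofReal (‖F z - s z‖ ^ 2 * Real.exp (-Φ z)) +
        ENNReal.ofReal (9 / 4 * (g z ^ 2)⁻¹)) := lintegral_mono_set hV'V
    _ = ENNReal.ofReal 4 * (∫⁻ z in V, ENNReal.ofReal (‖F z - s z‖ ^ 2 * Real.exp (-Φ z))) +
        ∫⁻ z in V, ENNReal.ofReal (9 / 4 * (g z ^ 2)⁻¹) := by
        rw [lintegral_add_right' _ (by fun_prop), lintegral_const_mul' _ _ ENNReal.ofReal_ne_top]
    _ ≤ ENNReal.ofReal 4 * ENNReal.ofReal (2 * M) + ENNReal.ofReal (9 / 4 * A) := by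
        gcongr
        exact hIA (9 / 4) (by norm_num)
    _ = ENNReal.ofReal (8 * M + 9 / 4 * A) := by
        rw [← ENNReal.ofReal_mul (by norm_num), ← ENNReal.ofReal_add (by positivity)
          (by positivity)]
        congr 1
        ring
    _ ≤ ENNReal.ofReal (8 * (K * A) + 9 / 4 * A) := by
        refine ENNReal.ofReal_le_ofReal ?_
        linarith

end Vale.Agent.P271.Dom
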