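import Vale.Agent.P271.H884.Psh

/-!
P271, block DOM: exhaustion functions of bounded analytic polyhedra.
-/

open MeasureTheory Filter Topology
open scoped ENNReal NNReal ComplexConjugate

namespace Vale.Agent.P271.Dom

open Vale.Agent.P282.L2

variable {n : ℕ}

theorem hasDeriv_inv1 {t : ℝ} (h : 1 - t ≠ 0) :
    HasDerivAt (fun t : ℝ => (1 - t)⁻¹) (((1 - t) ^ 2)⁻¹) t := by
  have h8 : HasDerivAt (fun t : ℝ => 1 - t) (-1) t := by
    simpa using (hasDerivAt_id t).const_sub 1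
  have h7 := (hasDerivAt_inv h).comp t h8
  refine h7.congr_deriv ?_
  ring

theorem hasDeriv_inv2 {t : ℝ} (h : 1 - t ≠ 0) :
    HasDerivAt (fun t : ℝ => ((1 - t) ^ 2)⁻¹) (2 * ((1 - t) ^ 3)⁻¹) t := by
  have h1 : (fun t : ℝ => ((1 - t) ^ 2)⁻¹) = fun t : ℝ => (1 - t)⁻¹ * (1 - t)⁻¹ := by
    funext x
    rw [← mul_inv, sq]
  rw [h1]
  refine ((hasDeriv_inv1 h).mul (hasDeriv_inv1 h)).congr_deriv ?_
  rw [← inv_pow, ← inv_pow]
  ring

/-- The exhaustion function of an analytic polyhedron. -/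
noncomputable def polyP {ι : Type*} [Fintype ι] (f : ι → (Fin n → ℂ) → ℂ) (z : Fin n → ℂ) : ℝ :=
  ∑ j, ‖z j‖ ^ 2 + ∑ i, (1 - ‖f i z‖ ^ 2)⁻¹

theorem isOpen_poly {ι : Type*} [Finite ι] {U : Set (Fin n → ℂ)} (hU : IsOpen U)
    {f : ι → (Fin n → ℂ) → ℂ} (hf : ∀ i, ContinuousOn (f i) U) :
    IsOpen {z | z ∈ U ∧ ∀ i, ‖f i z‖ < 1} := by
  have h1 : {z | z ∈ U ∧ ∀ i, ‖f i z‖ < 1} = U ∩ ⋂ i, {z | z ∈ U ∧ ‖f i z‖ < 1} := by
    ext z
    exact ⟨fun h => ⟨h.1, Set.mem_iInter.2 fun i => ⟨h.1, h.2 i⟩⟩,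
      fun h => ⟨h.1, fun i => (Set.mem_iInter.1 h.2 i).2⟩⟩
  rw [h1]
  refine hU.inter (isOpen_iInter_of_finite fun i => ?_)
  have h2 : {z | z ∈ U ∧ ‖f i z‖ < 1} = U ∩ (fun z => ‖f i z‖) ⁻¹' Set.Iio 1 := rfl
  rw [h2]
  exact (hf i).norm.isOpen_inter_preimage hU isOpen_Iio

/-- The exhaustion property for a bounded analytic polyhedron. -/
theorem exh_poly {ι : Type*} [Fintype ι] {U K : Set (Fin n → ℂ)} (hU : IsOpen U)
    {f : ι → (Fin n → ℂ) → ℂ} (hf : ∀ i, DifferentiableOn ℂ (f i) U)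
    (hK : IsCompact K) (hKU : K ⊆ U) (hVK : {z | z ∈ U ∧ ∀ i, ‖f i z‖ < 1} ⊆ K) :
    ∃ C : ℝ, 0 ≤ C ∧ Exh {z | z ∈ U ∧ ∀ i, ‖f i z‖ < 1} (polyP f) C 4 := by
  set V : Set (Fin n → ℂ) := {z | z ∈ U ∧ ∀ i, ‖f i z‖ < 1} with hVdef
  have hVo : IsOpen V := isOpen_poly hU fun i => (hf i).continuousOn
  have hVU : V ⊆ U := fun z hz => hz.1
  have hpos : ∀ z ∈ V, ∀ i, 0 < 1 - ‖f i z‖ ^ 2 := by
    intro z hz i
    have h1 := hz.2 i
    nlinarith [norm_nonneg (f i z)]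
  have hinv : ∀ z ∈ V, ∀ i, 0 < (1 - ‖f i z‖ ^ 2)⁻¹ := fun z hz i => inv_pos.2 (hpos z hz i)
  have hle : ∀ z ∈ V, ∀ i, (1 - ‖f i z‖ ^ 2)⁻¹ ≤ polyP f z := by
    intro z hz i
    have h1 : (1 - ‖f i z‖ ^ 2)⁻¹ ≤ ∑ i, (1 - ‖f i z‖ ^ 2)⁻¹ :=
      Finset.single_le_sum (f := fun i => (1 - ‖f i z‖ ^ 2)⁻¹) (fun i _ => (hinv z hz i).le)
        (Finset.mem_univ i)
    have h2 : (0 : ℝ) ≤ ∑ j, ‖z j‖ ^ 2 := Finset.sum_nonneg fun _ _ => sq_nonneg _
    unfold polyP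
    linarith
  have hge : ∀ z ∈ V, ∑ j, ‖z j‖ ^ 2 ≤ polyP f z := by
    intro z hz
    have h2 : (0 : ℝ) ≤ ∑ i, (1 - ‖f i z‖ ^ 2)⁻¹ := Finset.sum_nonneg fun i _ => (hinv z hz i).le
    unfold polyP
    linarith
  have hfc : ∀ (m : ℕ) (i : ι), ContDiffOn ℝ m (f i) U := fun m i =>
    Sheets.contDiffOn_real_of_holo hU (hf i) m
  have hfn : ∀ (m : ℕ) (i : ι), ContDiffOn ℝ m (fun z => ‖f i z‖ ^ 2) U := fun m i =>
    (hfc m i).norm_sq ℝ
  have hd : ∀ i, DifferentiableOn ℂ (fun z : Fin n → ℂ => z i) Set.univ := fun i =>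
    (ExhAux.diff_coord i).differentiableOn
  have hinvc : ∀ (m : ℕ) (i : ι), ContDiffOn ℝ m (fun z => (1 - ‖f i z‖ ^ 2)⁻¹) V := by
    intro m i
    exact ((contDiffOn_const (c := (1 : ℝ))).sub ((hfn m i).mono hVU)).inv
      fun z hz => (hpos z hz i).ne'
  -- bounds of the derivatives
  have hbd : ∃ M : ℝ, 0 ≤ M ∧ ∀ z ∈ V, ∀ i j, ‖dz j (f i) z‖ ≤ M := by
    have h1 : ∀ (i : ι) (j : Fin n), ∃ M : ℝ, ∀ z ∈ K, ‖dz j (f i) z‖ ≤ M := fun i j =>
      hK.exists_bound_of_continuousOn ((contDiffOn_dz (m := 0) hU (hfc 1 i)).continuousOn.mono hKU)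
    choose M hM using h1
    refine ⟨∑ i, ∑ j, |M i j|, Finset.sum_nonneg fun i _ => Finset.sum_nonneg fun j _ =>
      abs_nonneg _, fun z hz i j => ?_⟩
    calc ‖dz j (f i) z‖ ≤ M i j := hM i j z (hVK hz)
      _ ≤ |M i j| := le_abs_self _
      _ ≤ ∑ j, |M i j| := Finset.single_le_sum (f := fun j => |M i j|)
          (fun _ _ => abs_nonneg _) (Finset.mem_univ j)
      _ ≤ ∑ i, ∑ j, |M i j| := Finset.single_le_sum (f := fun i => ∑ j, |M i j|)
          (fun _ _ => Finset.sum_nonneg fun _ _ => abs_nonneg _) (Finset.mem_univ i)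
  obtain ⟨M, hM0, hM⟩ := hbd
  refine ⟨n * (1 + Fintype.card ι * M) ^ 2, by positivity, ?_, ?_, ?_, ?_, ?_⟩
  · -- smooth
    refine ContDiffOn.add (ContDiffOn.sum fun j _ => ?_) (ContDiffOn.sum fun i _ => ?_)
    · have h1 : ContDiffOn ℝ ((4 : ℕ) : WithTop ℕ∞) (fun z : Fin n → ℂ => ‖z j‖ ^ 2) Set.univ :=
        (Sheets.contDiffOn_real_of_holo isOpen_univ (hd j) 4).norm_sq ℝ
      exact (h1.mono (Set.subset_univ _))
    · exact hinvc 4 i
  · intro z hz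
    exact (ExhAux.norm_sq_le_sum z).trans (hge z hz)
  · -- compact sublevel sets
    intro c
    set c' : ℝ := max c 1 with hc'
    have hc'0 : 0 < c' := lt_of_lt_of_le one_pos (le_max_right _ _)
    set T : Set (Fin n → ℂ) := K ∩ ⋂ i, {z | z ∈ K ∧ 1 ≤ c' * (1 - ‖f i z‖ ^ 2)} with hT
    have hTc : IsCompact T := by
      refine hK.inter_right (isClosed_iInter fun i => ?_)
      have h1 : ContinuousOn (fun z => c' * (1 - ‖f i z‖ ^ 2)) K :=
        continuousOn_const.mul (continuousOn_const.sub (((hf i).continuousOn.mono hKU).norm.pow 2))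
      exact h1.preimage_isClosed_of_isClosed hK.isClosed isClosed_Ici
    have hTV : T ⊆ V := by
      intro z hz
      refine ⟨hKU hz.1, fun i => ?_⟩
      have h1 : 1 ≤ c' * (1 - ‖f i z‖ ^ 2) := (Set.mem_iInter.1 hz.2 i).2
      by_contra h2
      have h3 : 1 ≤ ‖f i z‖ := not_lt.1 h2
      nlinarith [mul_nonneg hc'0.le (by nlinarith : (0 : ℝ) ≤ ‖f i z‖ ^ 2 - 1)]
    have hVT : ∀ z ∈ V, polyP f z ≤ c → z ∈ T := by
      intro z hz hzc
      refine ⟨hVK hz, Set.mem_iInter.2 fun i => ⟨hVK hz, ?_⟩⟩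
      have h1 : (1 - ‖f i z‖ ^ 2)⁻¹ ≤ c' := (hle z hz i).trans (hzc.trans (le_max_left _ _))
      have h2 := mul_le_mul_of_nonneg_right h1 (hpos z hz i).le
      rwa [inv_mul_cancel₀ (hpos z hz i).ne'] at h2
    have hpc : ContinuousOn (polyP f) T := by
      refine ContinuousOn.mono ?_ hTV
      refine ContinuousOn.add ?_ (continuousOn_finsetSum _ fun i _ => (hinvc 0 i).continuousOn)
      exact (continuous_finsetSum _ fun j _ => ((continuous_apply j).norm.pow 2)).continuousOn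
    have h1 : {z | z ∈ V ∧ polyP f z ≤ c} = T ∩ (polyP f) ⁻¹' Set.Iic c := by
      ext z
      exact ⟨fun h => ⟨hVT z h.1 h.2, h.2⟩, fun h => ⟨hTV h.1, h.2⟩⟩
    rw [h1]
    exact hTc.of_isClosed_subset (hpc.preimage_isClosed_of_isClosed hTc.isClosed isClosed_Iic)
      Set.inter_subset_left
  · -- Levi form
    intro z hz β
    change _ ≤ leviF (polyP f) β z
    have hc1 : ContDiffAt ℝ 2 (fun z : Fin n → ℂ => ∑ j, ‖z j‖ ^ 2) z :=
      ContDiffAt.sum fun j _ => normSq_cda isOpen_univ (hd j) (Set.mem_univ z) 2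
    have hc2 : ∀ i, ContDiffAt ℝ 2 (fun z => (1 - ‖f i z‖ ^ 2)⁻¹) z := fun i =>
      (hinvc 2 i).contDiffAt (hVo.mem_nhds hz)
    have h1 : leviF (polyP f) β z = ∑ j, ‖β j‖ ^ 2 +
        ∑ i, leviF (fun z => (1 - ‖f i z‖ ^ 2)⁻¹) β z := by
      have h2 := leviF_add hc1 (ContDiffAt.sum (s := Finset.univ) fun i _ => hc2 i) β
      rw [leviF_sumSq, leviF_sum Finset.univ fun i _ => hc2 i] at h2
      exact h2
    rw [h1]
    refine le_add_of_nonneg_right (Finset.sum_nonneg fun i _ => ?_)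
    have hu : ContDiffAt ℝ 2 (fun z => ‖f i z‖ ^ 2) z := (hfn 2 i).contDiffAt (hU.mem_nhds hz.1)
    have h3 := leviF_comp (φ := fun t => (1 - t)⁻¹) (φ' := fun t => ((1 - t) ^ 2)⁻¹)
      (φ2 := 2 * ((1 - ‖f i z‖ ^ 2) ^ 3)⁻¹) hu
      (by
        filter_upwards [hVo.mem_nhds hz] with y hy
        exact hasDeriv_inv1 (hpos y hy i).ne')
      (hasDeriv_inv2 (hpos z hz i).ne') β
    rw [h3]
    have h4 : 0 ≤ leviF (fun z => ‖f i z‖ ^ 2) β z := by
      rw [leviF_normSq hU (hf i) hz.1]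
      positivity
    have h5 := hpos z hz i
    positivity
  · -- gradient
    intro z hz
    have hp0 : 0 ≤ polyP f z := le_trans (Finset.sum_nonneg fun _ _ => sq_nonneg _) (hge z hz)
    have hdz : ∀ j, ‖dz j (fun z => (polyP f z : ℂ)) z‖ ≤
        (1 + Fintype.card ι * M) * (1 + polyP f z) ^ 2 := by
      intro j
      have hA : DifferentiableAt ℝ (fun z : Fin n → ℂ => ((∑ j, ‖z j‖ ^ 2 : ℝ) : ℂ)) z := by
        have hA0 : ContDiffAt ℝ 2 (fun z : Fin n → ℂ => ∑ j, ‖z j‖ ^ 2) z :=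
          ContDiffAt.sum fun j _ => normSq_cda isOpen_univ (hd j) (Set.mem_univ z) 2
        exact Complex.ofRealCLM.differentiableAt.comp z (hA0.differentiableAt (by norm_num))
      have hBi : ∀ i, DifferentiableAt ℝ (fun z => (1 - ‖f i z‖ ^ 2)⁻¹) z := fun i =>
        ((hinvc 2 i).contDiffAt (hVo.mem_nhds hz)).differentiableAt (by norm_num)
      have hBi' : ∀ i, DifferentiableAt ℝ (fun z => (((1 - ‖f i z‖ ^ 2)⁻¹ : ℝ) : ℂ)) z := fun i =>
        Complex.ofRealCLM.differentiableAt.comp z (hBi i)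
      have hcoord : ∀ i, DifferentiableAt ℝ (fun z : Fin n → ℂ => ((‖z i‖ ^ 2 : ℝ) : ℂ)) z :=
        fun i => Complex.ofRealCLM.differentiableAt.comp z
          ((normSq_cda isOpen_univ (hd i) (Set.mem_univ z) 2).differentiableAt (by norm_num))
      have h1 : dz j (fun z => (polyP f z : ℂ)) z = conj (z j) +
          ∑ i, dz j (fun z => (((1 - ‖f i z‖ ^ 2)⁻¹ : ℝ) : ℂ)) z := by
        have h2 : (fun z => (polyP f z : ℂ)) = fun z : Fin n → ℂ => ((∑ j, ‖z j‖ ^ 2 : ℝ) : ℂ) +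
            ∑ i, (((1 - ‖f i z‖ ^ 2)⁻¹ : ℝ) : ℂ) := by
          funext y
          unfold polyP
          push_cast
          ring
        rw [h2, dz_add hA (DifferentiableAt.fun_sum fun i _ => hBi' i),
          dz_sum Finset.univ fun i _ => hBi' i]
        congr 1
        have h3 : (fun z : Fin n → ℂ => ((∑ j, ‖z j‖ ^ 2 : ℝ) : ℂ)) =
            fun z : Fin n → ℂ => ∑ i, ((‖z i‖ ^ 2 : ℝ) : ℂ) := by
          funext y
          push_cast
          rfl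
        rw [h3, dz_sum Finset.univ fun i _ => hcoord i]
        have h4 : ∀ i, dz j (fun z : Fin n → ℂ => ((‖z i‖ ^ 2 : ℝ) : ℂ)) z =
            dz j (fun z : Fin n → ℂ => z i) z * conj (z i) := fun i =>
          ExhAux.dz_sq isOpen_univ (hd i) (Set.mem_univ z) j
        simp only [h4, ExhAux.dz_coord]
        simp
      have h5 : ∀ i, ‖dz j (fun z => (((1 - ‖f i z‖ ^ 2)⁻¹ : ℝ) : ℂ)) z‖ ≤
          M * (1 + polyP f z) ^ 2 := by
        intro i
        have hu : DifferentiableAt ℝ (fun z => ‖f i z‖ ^ 2) z :=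
          ((hfn 2 i).contDiffAt (hU.mem_nhds hz.1)).differentiableAt (by norm_num)
        have h6 := hasDeriv_inv1 (hpos z hz i).ne'
        rw [dz_comp_real hu h6.differentiableAt, h6.deriv, ExhAux.dz_sq hU (hf i) hz.1]
        rw [norm_mul, norm_mul, Complex.norm_real, RCLike.norm_conj, Real.norm_eq_abs,
          abs_of_pos (by have := hpos z hz i; positivity)]
        have h9 : ((1 - ‖f i z‖ ^ 2) ^ 2)⁻¹ ≤ (1 + polyP f z) ^ 2 := by
          rw [← inv_pow]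
          exact pow_le_pow_left₀ (hinv z hz i).le ((hle z hz i).trans (by linarith)) 2
        have h10 : ‖dz j (f i) z‖ * ‖f i z‖ ≤ M * 1 :=
          mul_le_mul (hM z hz i j) (hz.2 i).le (norm_nonneg _) hM0
        calc ((1 - ‖f i z‖ ^ 2) ^ 2)⁻¹ * (‖dz j (f i) z‖ * ‖f i z‖)
            ≤ (1 + polyP f z) ^ 2 * (M * 1) :=
              mul_le_mul h9 h10 (by positivity) (by positivity)
          _ = M * (1 + polyP f z) ^ 2 := by ring
      have h11 : ‖z j‖ ≤ (1 + polyP f z) ^ 2 := by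
        have h12 : ‖z j‖ ^ 2 ≤ polyP f z :=
          (Finset.single_le_sum (f := fun j => ‖z j‖ ^ 2) (fun _ _ => sq_nonneg _)
            (Finset.mem_univ j)).trans (hge z hz)
        nlinarith [sq_nonneg (‖z j‖ - 1), norm_nonneg (z j)]
      rw [h1]
      calc ‖conj (z j) + ∑ i, dz j (fun z => (((1 - ‖f i z‖ ^ 2)⁻¹ : ℝ) : ℂ)) z‖
          ≤ ‖conj (z j)‖ + ∑ i, ‖dz j (fun z => (((1 - ‖f i z‖ ^ 2)⁻¹ : ℝ) : ℂ)) z‖ :=
            (norm_add_le _ _).trans (add_le_add le_rfl (norm_sum_le _ _))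
        _ ≤ (1 + polyP f z) ^ 2 + ∑ _i : ι, M * (1 + polyP f z) ^ 2 := by
            rw [RCLike.norm_conj]
            exact add_le_add h11 (Finset.sum_le_sum fun i _ => h5 i)
        _ = (1 + Fintype.card ι * M) * (1 + polyP f z) ^ 2 := by
            rw [Finset.sum_const, Finset.card_univ, nsmul_eq_mul]
            ring
    calc ∑ j, ‖dz j (fun z => (polyP f z : ℂ)) z‖ ^ 2
        ≤ ∑ _j : Fin n, ((1 + Fintype.card ι * M) * (1 + polyP f z) ^ 2) ^ 2 :=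
          Finset.sum_le_sum fun j _ => pow_le_pow_left₀ (norm_nonneg _) (hdz j) 2
      _ = n * (1 + Fintype.card ι * M) ^ 2 * (1 + polyP f z) ^ 4 := by
          rw [Finset.sum_const, Finset.card_univ, nsmul_eq_mul, Fintype.card_fin]
          ring

/-- Polydiscs cut by finitely many holomorphic inequalities (block D2). -/
theorem exh_polydisc {ι : Type*} [Fintype ι] {z₀ : Fin n → ℂ} {r : ℝ} (hr : 0 < r)
    {U : Set (Fin n → ℂ)} (hU : IsOpen U) (hrU : Metric.closedBall z₀ r ⊆ U)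
    {m : ι → (Fin n → ℂ) → ℂ} (hm : ∀ i, DifferentiableOn ℂ (m i) U)
    {x : ι → ℝ} (hx : ∀ i, 0 < x i) :
    IsOpen {w | w ∈ Metric.ball z₀ r ∧ ∀ i, ‖m i w‖ < x i} ∧
      ∃ (p : (Fin n → ℂ) → ℝ) (C : ℝ), 0 ≤ C ∧ (∀ w, w ∈ Metric.ball z₀ r →
        (∀ i, ‖m i w‖ < x i) → 0 ≤ p w) ∧
        Exh {w | w ∈ Metric.ball z₀ r ∧ ∀ i, ‖m i w‖ < x i} p C 4 := by
  set f : Fin n ⊕ ι → (Fin n → ℂ) → ℂ :=
    Sum.elim (fun j w => (w j - z₀ j) / r) (fun i w => m i w / x i) with hf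
  have hfd : ∀ i, DifferentiableOn ℂ (f i) U := by
    rintro (j | i)
    · have h1 : Differentiable ℂ (fun w : Fin n → ℂ => w j - z₀ j) :=
        (ExhAux.diff_coord j).sub_const (z₀ j)
      have h2 : Differentiable ℂ (fun w : Fin n → ℂ => (w j - z₀ j) / (r : ℂ)) := by
        simp only [div_eq_mul_inv]
        exact h1.mul_const _
      exact h2.differentiableOn
    · have h3 : DifferentiableOn ℂ (fun w => m i w / (x i : ℂ)) U := by
        simp only [div_eq_mul_inv]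
        exact (hm i).mul_const _
      exact h3
  have heq : {w | w ∈ Metric.ball z₀ r ∧ ∀ i, ‖m i w‖ < x i} =
      {w | w ∈ U ∧ ∀ i, ‖f i w‖ < 1} := by
    ext w
    have h1 : ∀ i, ‖f (Sum.inr i) w‖ < 1 ↔ ‖m i w‖ < x i := by
      intro i
      simp only [hf, Sum.elim_inr, norm_div, Complex.norm_real, Real.norm_eq_abs,
        abs_of_pos (hx i)]
      rw [div_lt_one (hx i)]
    have h2 : (∀ j, ‖f (Sum.inl j) w‖ < 1) ↔ w ∈ Metric.ball z₀ r := by
      rw [mem_ball_iff_norm, pi_norm_lt_iff hr]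
      refine forall_congr' fun j => ?_
      simp only [hf, Sum.elim_inl, norm_div, Complex.norm_real, Real.norm_eq_abs,
        abs_of_pos hr, Pi.sub_apply]
      rw [div_lt_one hr]
    constructor
    · rintro ⟨h3, h4⟩
      refine ⟨hrU (Metric.ball_subset_closedBall h3), ?_⟩
      rintro (j | i)
      · exact (h2.2 h3) j
      · exact (h1 i).2 (h4 i)
    · rintro ⟨-, h4⟩
      exact ⟨h2.1 fun j => h4 _, fun i => (h1 i).1 (h4 _)⟩
  have hVK : {w | w ∈ U ∧ ∀ i, ‖f i w‖ < 1} ⊆ Metric.closedBall z₀ r := by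
    rw [← heq]
    exact fun w hw => Metric.ball_subset_closedBall hw.1
  obtain ⟨C, hC, hE⟩ := exh_poly hU hfd (isCompact_closedBall z₀ r) hrU hVK
  rw [heq]
  refine ⟨isOpen_poly hU fun i => (hfd i).continuousOn, polyP f, C, hC, ?_, hE⟩
  intro w h1 h2
  have h3 : w ∈ {w | w ∈ U ∧ ∀ i, ‖f i w‖ < 1} := by
    rw [← heq]
    exact ⟨h1, h2⟩
  exact (sq_nonneg _).trans (hE.norm_sq_le w h3)

/-- The exhaustion property for a polydisc. -/
theorem exh_ball {z₀ : Fin n → ℂ} {r : ℝ} (hr : 0 < r) :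
    ∃ (p : (Fin n → ℂ) → ℝ) (C : ℝ), 0 ≤ C ∧ Exh (Metric.ball z₀ r) p C 4 := by
  obtain ⟨-, p, C, hC, -, hE⟩ := exh_polydisc (ι := Empty) (z₀ := z₀) hr isOpen_univ
    (Set.subset_univ _) (m := fun i => i.elim) (fun i => i.elim) (x := fun i => i.elim)
    (fun i => i.elim)
  refine ⟨p, C, hC, ?_⟩
  have h : {w | w ∈ Metric.ball z₀ r ∧ ∀ i : Empty, ‖(fun i => i.elim : Empty →
      (Fin n → ℂ) → ℂ) i w‖ < (fun i => i.elim : Empty → ℝ) i} = Metric.ball z₀ r := by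
    ext w
    exact ⟨fun h => h.1, fun h => ⟨h, fun i => i.elim⟩⟩
  rw [h] at hE
  exact hE

end Vale.Agent.P271.Dom
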