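import Vale.Agent.P271.H884.Dom

/-!
P271, block DOM: Levi forms of real functions on `ℂⁿ`.
-/

open MeasureTheory Filter Topology
open scoped ENNReal NNReal ComplexConjugate

namespace Vale.Agent.P271.Dom

open Vale.Agent.P282.L2

variable {n : ℕ} {z : Fin n → ℂ} {u v : (Fin n → ℂ) → ℝ}

/-- The derivative `∂u · β`. -/
noncomputable def dF (u : (Fin n → ℂ) → ℝ) (β : Fin n → ℂ) (z : Fin n → ℂ) : ℂ :=
  ∑ j, dz j (fun z => (u z : ℂ)) z * β j

theorem cda_ofReal (hu : ContDiffAt ℝ 2 u z) : ContDiffAt ℝ 2 (fun z => (u z : ℂ)) z :=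
  Complex.ofRealCLM.contDiff.contDiffAt.comp z hu

theorem diffAt_dzb {f : (Fin n → ℂ) → ℂ} (hf : ContDiffAt ℝ 2 f z) (k : Fin n) :
    DifferentiableAt ℝ (dzb k f) z := by
  have h1 : ContDiffAt ℝ 1 (fderiv ℝ f) z := hf.fderiv_right (by norm_num)
  have h2 : DifferentiableAt ℝ (fderiv ℝ f) z := h1.differentiableAt (by norm_num)
  have h3 : ∀ v : Fin n → ℂ, DifferentiableAt ℝ (fun y => fderiv ℝ f y v) z := fun v =>
    h2.clm_apply (differentiableAt_const v)
  have h4 : DifferentiableAt ℝ (fun y => (fderiv ℝ f y (Pi.single k 1) +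
      Complex.I * fderiv ℝ f y (Pi.single k Complex.I)) * (2 : ℂ)⁻¹) z :=
    ((h3 _).add ((h3 _).const_mul Complex.I)).mul_const _
  refine h4.congr_of_eventuallyEq (Eventually.of_forall fun y => ?_)
  simp only [dzb, div_eq_mul_inv]

theorem diffAt_dz {f : (Fin n → ℂ) → ℂ} (hf : ContDiffAt ℝ 2 f z) (k : Fin n) :
    DifferentiableAt ℝ (dz k f) z := by
  have h1 : ContDiffAt ℝ 1 (fderiv ℝ f) z := hf.fderiv_right (by norm_num)
  have h2 : DifferentiableAt ℝ (fderiv ℝ f) z := h1.differentiableAt (by norm_num)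
  have h3 : ∀ v : Fin n → ℂ, DifferentiableAt ℝ (fun y => fderiv ℝ f y v) z := fun v =>
    h2.clm_apply (differentiableAt_const v)
  have h4 : DifferentiableAt ℝ (fun y => (fderiv ℝ f y (Pi.single k 1) -
      Complex.I * fderiv ℝ f y (Pi.single k Complex.I)) * (2 : ℂ)⁻¹) z :=
    ((h3 _).sub ((h3 _).const_mul Complex.I)).mul_const _
  refine h4.congr_of_eventuallyEq (Eventually.of_forall fun y => ?_)
  simp only [dz, div_eq_mul_inv]

theorem dzb_congr_ev {f g : (Fin n → ℂ) → ℂ} (h : f =ᶠ[𝓝 z] g) (k : Fin n) :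
    dzb k f =ᶠ[𝓝 z] dzb k g := by
  filter_upwards [h.eventually_nhds] with y hy
  exact dzb_congr hy

theorem leviF_congr (h : u =ᶠ[𝓝 z] v) (β : Fin n → ℂ) : leviF u β z = leviF v β z := by
  have h1 : (fun z => (u z : ℂ)) =ᶠ[𝓝 z] fun z => (v z : ℂ) := by
    filter_upwards [h] with y hy
    rw [hy]
  unfold leviF
  congr 1
  refine Finset.sum_congr rfl fun j _ => Finset.sum_congr rfl fun k _ => ?_
  rw [dz_congr (dzb_congr_ev h1 k)]

theorem dF_congr (h : u =ᶠ[𝓝 z] v) (β : Fin n → ℂ) : dF u β z = dF v β z := by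
  have h1 : (fun z => (u z : ℂ)) =ᶠ[𝓝 z] fun z => (v z : ℂ) := by
    filter_upwards [h] with y hy
    rw [hy]
  unfold dF
  refine Finset.sum_congr rfl fun j _ => ?_
  rw [dz_congr h1]

theorem dzb_real (k : Fin n) (z : Fin n → ℂ) :
    dzb k (fun z => (u z : ℂ)) z = conj (dz k (fun z => (u z : ℂ)) z) := by
  rw [← dzb_conj]
  simp only [Complex.conj_ofReal]

theorem sum_dzb_conj (β : Fin n → ℂ) :
    ∑ k, dzb k (fun z => (u z : ℂ)) z * conj (β k) = conj (dF u β z) := by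
  unfold dF
  rw [map_sum]
  refine Finset.sum_congr rfl fun k _ => ?_
  rw [dzb_real, map_mul]

/-- Composition with a function of one real variable. -/
theorem leviF_comp {φ φ' : ℝ → ℝ} {φ2 : ℝ} (hu : ContDiffAt ℝ 2 u z)
    (h1 : ∀ᶠ y in 𝓝 z, HasDerivAt φ (φ' (u y)) (u y)) (h2 : HasDerivAt φ' φ2 (u z))
    (β : Fin n → ℂ) :
    leviF (fun z => φ (u z)) β z = φ' (u z) * leviF u β z + φ2 * ‖dF u β z‖ ^ 2 := by
  have hud : ∀ᶠ y in 𝓝 z, DifferentiableAt ℝ u y := by
    filter_upwards [hu.eventually (by norm_num)] with y hy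
    exact hy.differentiableAt (by norm_num)
  have h : ∀ j k, dz j (dzb k (fun z => ((φ (u z) : ℝ) : ℂ))) z =
      ((φ2 : ℝ) : ℂ) * dz j (fun z => (u z : ℂ)) z * dzb k (fun z => (u z : ℂ)) z +
      ((φ' (u z) : ℝ) : ℂ) * dz j (dzb k (fun z => (u z : ℂ))) z := by
    intro j k
    have h3 : dzb k (fun z => ((φ (u z) : ℝ) : ℂ)) =ᶠ[𝓝 z]
        fun z => ((φ' (u z) : ℝ) : ℂ) * dzb k (fun z => (u z : ℂ)) z := by
      filter_upwards [h1, hud] with y hy1 hy2
      rw [dzb_comp_real hy2 hy1.differentiableAt, hy1.deriv]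
    rw [dz_congr h3]
    have h4 : DifferentiableAt ℝ (dzb k (fun z => (u z : ℂ))) z := diffAt_dzb (cda_ofReal hu) k
    have h5 : DifferentiableAt ℝ (fun z => ((φ' (u z) : ℝ) : ℂ)) z :=
      Complex.ofRealCLM.differentiableAt.comp z (h2.differentiableAt.comp z hud.self_of_nhds)
    rw [dz_mul h5 h4, dz_comp_real hud.self_of_nhds h2.differentiableAt, h2.deriv]
  unfold leviF
  simp only [h]
  have e1 : ∑ j, ∑ k, (((φ2 : ℝ) : ℂ) * dz j (fun z => (u z : ℂ)) z *
        dzb k (fun z => (u z : ℂ)) z +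
      ((φ' (u z) : ℝ) : ℂ) * dz j (dzb k (fun z => (u z : ℂ))) z) * β j * conj (β k) =
      ((φ2 : ℝ) : ℂ) * (dF u β z * conj (dF u β z)) +
      ((φ' (u z) : ℝ) : ℂ) *
        ∑ j, ∑ k, dz j (dzb k (fun z => (u z : ℂ))) z * β j * conj (β k) := by
    unfold dF
    rw [map_sum, Finset.sum_mul_sum, Finset.mul_sum, Finset.mul_sum, ← Finset.sum_add_distrib]
    refine Finset.sum_congr rfl fun j _ => ?_
    rw [Finset.mul_sum, Finset.mul_sum, ← Finset.sum_add_distrib]
    refine Finset.sum_congr rfl fun k _ => ?_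
    rw [dzb_real, map_mul]
    ring
  rw [e1, Complex.mul_conj, Complex.add_re, Complex.re_ofReal_mul, Complex.re_ofReal_mul,
    Complex.ofReal_re, Complex.normSq_eq_norm_sq]
  ring

theorem dF_comp {φ : ℝ → ℝ} {φ1 : ℝ} (hu : DifferentiableAt ℝ u z)
    (h1 : HasDerivAt φ φ1 (u z)) (β : Fin n → ℂ) :
    dF (fun z => φ (u z)) β z = φ1 * dF u β z := by
  unfold dF
  rw [Finset.mul_sum]
  refine Finset.sum_congr rfl fun j _ => ?_
  rw [dz_comp_real hu h1.differentiableAt, h1.deriv]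
  ring

theorem leviF_add (hu : ContDiffAt ℝ 2 u z) (hv : ContDiffAt ℝ 2 v z) (β : Fin n → ℂ) :
    leviF (fun z => u z + v z) β z = leviF u β z + leviF v β z := by
  have h : ∀ j k, dz j (dzb k (fun z => ((u z + v z : ℝ) : ℂ))) z =
      dz j (dzb k (fun z => (u z : ℂ))) z + dz j (dzb k (fun z => (v z : ℂ))) z := by
    intro j k
    have h1 : dzb k (fun z => ((u z + v z : ℝ) : ℂ)) =ᶠ[𝓝 z]
        fun z => dzb k (fun z => (u z : ℂ)) z + dzb k (fun z => (v z : ℂ)) z := by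
      filter_upwards [hu.eventually (by norm_num), hv.eventually (by norm_num)] with y h1 h2
      simp only [Complex.ofReal_add]
      exact dzb_add ((cda_ofReal h1).differentiableAt (by norm_num))
        ((cda_ofReal h2).differentiableAt (by norm_num))
    rw [dz_congr h1]
    exact dz_add (diffAt_dzb (cda_ofReal hu) k) (diffAt_dzb (cda_ofReal hv) k)
  unfold leviF
  rw [← Complex.add_re, ← Finset.sum_add_distrib]
  congr 1
  refine Finset.sum_congr rfl fun j _ => ?_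
  rw [← Finset.sum_add_distrib]
  refine Finset.sum_congr rfl fun k _ => ?_
  rw [h j k]
  ring

theorem dF_add (hu : DifferentiableAt ℝ u z) (hv : DifferentiableAt ℝ v z) (β : Fin n → ℂ) :
    dF (fun z => u z + v z) β z = dF u β z + dF v β z := by
  unfold dF
  rw [← Finset.sum_add_distrib]
  refine Finset.sum_congr rfl fun j _ => ?_
  simp only [Complex.ofReal_add]
  have h1 : DifferentiableAt ℝ (fun z => (u z : ℂ)) z :=
    Complex.ofRealCLM.differentiableAt.comp z hu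
  have h2 : DifferentiableAt ℝ (fun z => (v z : ℂ)) z :=
    Complex.ofRealCLM.differentiableAt.comp z hv
  rw [dz_add h1 h2]
  ring

theorem leviF_const (c : ℝ) (β : Fin n → ℂ) : leviF (fun _ => c) β z = 0 := by
  unfold leviF
  have h : ∀ k : Fin n, dzb k (fun _ : Fin n → ℂ => (c : ℂ)) = fun _ => 0 := by
    intro k
    funext y
    exact dzb_const _
  simp [h, dz_const]

theorem dF_const (c : ℝ) (β : Fin n → ℂ) : dF (fun _ => c) β z = 0 := by
  unfold dF
  simp [dz_const]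

theorem leviF_const_mul (hu : ContDiffAt ℝ 2 u z) (c : ℝ) (β : Fin n → ℂ) :
    leviF (fun z => c * u z) β z = c * leviF u β z := by
  have h := leviF_comp (φ := fun t => c * t) (φ' := fun _ => c) (φ2 := 0) hu
    (Eventually.of_forall fun y => by simpa using (hasDerivAt_id (u y)).const_mul c)
    (hasDerivAt_const _ _) β
  rw [h]
  ring

theorem leviF_sum {ι : Type*} (s : Finset ι) {w : ι → (Fin n → ℂ) → ℝ}
    (hw : ∀ i ∈ s, ContDiffAt ℝ 2 (w i) z) (β : Fin n → ℂ) :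
    leviF (fun z => ∑ i ∈ s, w i z) β z = ∑ i ∈ s, leviF (w i) β z := by
  classical
  induction s using Finset.induction_on with
  | empty => simp [leviF_const]
  | insert i s hi ih =>
    simp only [Finset.sum_insert hi]
    rw [leviF_add (hw i (Finset.mem_insert_self i s))
      (ContDiffAt.sum fun j hj => hw j (Finset.mem_insert_of_mem hj)),
      ih fun j hj => hw j (Finset.mem_insert_of_mem hj)]

theorem dF_sum {ι : Type*} (s : Finset ι) {w : ι → (Fin n → ℂ) → ℝ}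
    (hw : ∀ i ∈ s, DifferentiableAt ℝ (w i) z) (β : Fin n → ℂ) :
    dF (fun z => ∑ i ∈ s, w i z) β z = ∑ i ∈ s, dF (w i) β z := by
  classical
  induction s using Finset.induction_on with
  | empty => simp [dF_const]
  | insert i s hi ih =>
    simp only [Finset.sum_insert hi]
    rw [dF_add (hw i (Finset.mem_insert_self i s))
      (DifferentiableAt.fun_sum fun j hj => hw j (Finset.mem_insert_of_mem hj)),
      ih fun j hj => hw j (Finset.mem_insert_of_mem hj)]

theorem contDiffAt_normSq {f : (Fin n → ℂ) → ℂ} (hf : AnalyticAt ℂ f z) :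
    ContDiffAt ℝ 2 (fun z => ‖f z‖ ^ 2) z := by
  have h1 : ContDiffAt ℝ 2 f z := (hf.contDiffAt (n := 2)).restrict_scalars ℝ
  exact h1.norm_sq ℝ

/-- `|f|²`, `f` holomorphic. -/
theorem leviF_normSq {V : Set (Fin n → ℂ)} (hV : IsOpen V) {f : (Fin n → ℂ) → ℂ}
    (hf : DifferentiableOn ℂ f V) (hz : z ∈ V) (β : Fin n → ℂ) :
    leviF (fun z => ‖f z‖ ^ 2) β z = ‖∑ j, dz j f z * β j‖ ^ 2 := by
  unfold leviF
  simp only [ExhAux.dz_dzb_sq hV hf hz]
  have e1 : ∑ j, ∑ k, dz j f z * conj (dz k f z) * β j * conj (β k) =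
      (∑ j, dz j f z * β j) * conj (∑ j, dz j f z * β j) := by
    rw [map_sum, Finset.sum_mul_sum]
    refine Finset.sum_congr rfl fun j _ => Finset.sum_congr rfl fun k _ => ?_
    rw [map_mul]
    ring
  rw [e1, Complex.mul_conj, Complex.ofReal_re, Complex.normSq_eq_norm_sq]

theorem dF_normSq {V : Set (Fin n → ℂ)} (hV : IsOpen V) {f : (Fin n → ℂ) → ℂ}
    (hf : DifferentiableOn ℂ f V) (hz : z ∈ V) (β : Fin n → ℂ) :
    dF (fun z => ‖f z‖ ^ 2) β z = (∑ j, dz j f z * β j) * conj (f z) := by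
  unfold dF
  simp only [ExhAux.dz_sq hV hf hz]
  rw [Finset.sum_mul]
  refine Finset.sum_congr rfl fun j _ => ?_
  ring

theorem normSq_cda {V : Set (Fin n → ℂ)} (hV : IsOpen V) {f : (Fin n → ℂ) → ℂ}
    (hf : DifferentiableOn ℂ f V) (hz : z ∈ V) (m : ℕ) : ContDiffAt ℝ m (fun z => ‖f z‖ ^ 2) z :=
  ((Sheets.contDiffOn_real_of_holo hV hf m).norm_sq ℝ).contDiffAt (hV.mem_nhds hz)

/-- `∑ |z_i|²`. -/
theorem leviF_sumSq (β : Fin n → ℂ) :
    leviF (fun z : Fin n → ℂ => ∑ i, ‖z i‖ ^ 2) β z = ∑ j, ‖β j‖ ^ 2 := by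
  have hd : ∀ i, DifferentiableOn ℂ (fun z : Fin n → ℂ => z i) Set.univ := fun i =>
    (ExhAux.diff_coord i).differentiableOn
  rw [leviF_sum Finset.univ fun i _ => normSq_cda isOpen_univ (hd i) (Set.mem_univ z) 2]
  refine Finset.sum_congr rfl fun i _ => ?_
  rw [leviF_normSq isOpen_univ (hd i) (Set.mem_univ z)]
  simp [ExhAux.dz_coord]

/-- `log (∑ exp u_i)`. -/
theorem leviF_lse {ι : Type*} [Fintype ι] [Nonempty ι] {w : ι → (Fin n → ℂ) → ℝ}
    (hw : ∀ i, ContDiffAt ℝ 2 (w i) z) {β : Fin n → ℂ} (hl : ∀ i, 0 ≤ leviF (w i) β z) :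
    0 ≤ leviF (fun z => Real.log (∑ i, Real.exp (w i z))) β z := by
  set S : (Fin n → ℂ) → ℝ := fun z => ∑ i, Real.exp (w i z) with hS
  have hSpos : ∀ y, 0 < S y := fun y =>
    Finset.sum_pos (fun i _ => Real.exp_pos _) Finset.univ_nonempty
  have hE : ∀ i, ContDiffAt ℝ 2 (fun z => Real.exp (w i z)) z := fun i =>
    (Real.contDiff_exp.contDiffAt).comp z (hw i)
  have hSc : ContDiffAt ℝ 2 S z := ContDiffAt.sum fun i _ => hE i
  have h1 : leviF (fun z => Real.log (S z)) β z =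
      (S z)⁻¹ * leviF S β z + (-(S z ^ 2)⁻¹) * ‖dF S β z‖ ^ 2 := by
    refine leviF_comp (φ := Real.log) (φ' := fun t => t⁻¹) hSc
      (Eventually.of_forall fun y => Real.hasDerivAt_log (hSpos y).ne') ?_ β
    exact hasDerivAt_inv (hSpos z).ne'
  have h2 : leviF S β z = ∑ i, Real.exp (w i z) * (leviF (w i) β z + ‖dF (w i) β z‖ ^ 2) := by
    rw [hS, leviF_sum Finset.univ fun i _ => hE i]
    refine Finset.sum_congr rfl fun i _ => ?_
    rw [leviF_comp (φ := Real.exp) (φ' := Real.exp) (hw i)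
      (Eventually.of_forall fun y => Real.hasDerivAt_exp _) (Real.hasDerivAt_exp _) β]
    ring
  have h3 : dF S β z = ∑ i, (Real.exp (w i z) : ℂ) * dF (w i) β z := by
    rw [hS, dF_sum Finset.univ fun i _ => (hE i).differentiableAt (by norm_num)]
    refine Finset.sum_congr rfl fun i _ => ?_
    exact dF_comp ((hw i).differentiableAt (by norm_num)) (Real.hasDerivAt_exp _) β
  have h4 : ‖dF S β z‖ ^ 2 ≤ S z * ∑ i, Real.exp (w i z) * ‖dF (w i) β z‖ ^ 2 := by
    have h5 : ‖dF S β z‖ ≤ ∑ i, Real.exp (w i z) * ‖dF (w i) β z‖ := by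
      rw [h3]
      refine (norm_sum_le _ _).trans (Finset.sum_le_sum fun i _ => ?_)
      rw [norm_mul, Complex.norm_real, Real.norm_eq_abs, abs_of_pos (Real.exp_pos _)]
    have h6 : (∑ i, Real.exp (w i z) * ‖dF (w i) β z‖) ^ 2 ≤
        (∑ i, Real.exp (w i z)) * ∑ i, Real.exp (w i z) * ‖dF (w i) β z‖ ^ 2 := by
      refine Finset.sum_sq_le_sum_mul_sum_of_sq_le_mul _ (fun i _ => (Real.exp_pos _).le)
        (fun i _ => by positivity) fun i _ => le_of_eq (by ring)
    exact (pow_le_pow_left₀ (norm_nonneg _) h5 2).trans h6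
  have h7 : leviF (fun z => Real.log (S z)) β z =
      (S z ^ 2)⁻¹ * (S z * leviF S β z - ‖dF S β z‖ ^ 2) := by
    rw [h1]
    have := (hSpos z).ne'
    field_simp
    ring
  rw [h7]
  refine mul_nonneg (inv_nonneg.2 (sq_nonneg _)) ?_
  rw [h2]
  have h8 : ∑ i, Real.exp (w i z) * ‖dF (w i) β z‖ ^ 2 ≤
      ∑ i, Real.exp (w i z) * (leviF (w i) β z + ‖dF (w i) β z‖ ^ 2) := by
    refine Finset.sum_le_sum fun i _ => mul_le_mul_of_nonneg_left ?_ (Real.exp_pos _).le
    linarith [hl i]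
  have h9 := mul_le_mul_of_nonneg_left h8 (hSpos z).le
  linarith

/-- `log (|f|² + ε)`. -/
theorem leviF_log_normSq {V : Set (Fin n → ℂ)} (hV : IsOpen V) {f : (Fin n → ℂ) → ℂ}
    (hf : DifferentiableOn ℂ f V) (hz : z ∈ V) {ε : ℝ} (hε : 0 < ε) (β : Fin n → ℂ) :
    leviF (fun z => Real.log (‖f z‖ ^ 2 + ε)) β z =
      ε / (‖f z‖ ^ 2 + ε) ^ 2 * ‖∑ j, dz j f z * β j‖ ^ 2 := by
  have hpos : ∀ y : Fin n → ℂ, 0 < ‖f y‖ ^ 2 + ε := fun y => by positivity
  have hc : ContDiffAt ℝ 2 (fun z => ‖f z‖ ^ 2 + ε) z :=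
    (normSq_cda hV hf hz 2).add contDiffAt_const
  have h1 := leviF_comp (φ := Real.log) (φ' := fun t => t⁻¹) hc
    (Eventually.of_forall fun y => Real.hasDerivAt_log (hpos y).ne')
    (hasDerivAt_inv (hpos z).ne') β
  have h2 : leviF (fun z => ‖f z‖ ^ 2 + ε) β z = ‖∑ j, dz j f z * β j‖ ^ 2 := by
    rw [leviF_add (normSq_cda hV hf hz 2) contDiffAt_const, leviF_const, add_zero,
      leviF_normSq hV hf hz]
  have h3 : dF (fun z => ‖f z‖ ^ 2 + ε) β z = (∑ j, dz j f z * β j) * conj (f z) := by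
    rw [dF_add ((normSq_cda hV hf hz 2).differentiableAt (by norm_num))
      (differentiableAt_const _), dF_const, add_zero, dF_normSq hV hf hz]
  rw [h1, h2, h3, norm_mul, RCLike.norm_conj, mul_pow]
  have := (hpos z).ne'
  field_simp
  ring

end Vale.Agent.P271.Dom
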