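import Mathlib

/-!
P271, row 16 (SUMTYPE): a generic linear combination of functions has the integrability exponent
of their maximum (Tonelli).
-/

open MeasureTheory Filter Topology
open scoped ENNReal NNReal

namespace Vale.Agent.P271.SumType

/-- `|v|^{-2κ}` (the value at `0` is `1`). -/
noncomputable def ee (κ : ℝ) (v : ℝ) : ℝ≥0∞ := ENNReal.ofReal (Real.exp (-2 * (κ * Real.log v)))

theorem measurable_ee (κ : ℝ) : Measurable (ee κ) := by
  unfold ee
  fun_prop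

theorem ee_mul {κ u v : ℝ} (hu : u ≠ 0) (hv : v ≠ 0) : ee κ (u * v) = ee κ u * ee κ v := by
  unfold ee
  rw [Real.log_mul hu hv, ← ENNReal.ofReal_mul (Real.exp_pos _).le, ← Real.exp_add]
  congr 2
  ring

theorem ee_le_one {κ v : ℝ} (hκ : 0 ≤ κ) (hv : 1 ≤ v) : ee κ v ≤ 1 := by
  unfold ee
  rw [← ENNReal.ofReal_one]
  refine ENNReal.ofReal_le_ofReal (Real.exp_le_one_iff.2 ?_)
  have := mul_nonneg hκ (Real.log_nonneg hv)
  linarith

theorem ee_ne_top (κ v : ℝ) : ee κ v ≠ ∞ := ENNReal.ofReal_ne_top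

/-- The integral over the unit disc is finite. -/
theorem lintegral_ee_lt_top {κ : ℝ} (hκ1 : κ < 1) :
    ∫⁻ w in Metric.ball (0 : ℂ) 1, ee κ ‖w‖ < ∞ := by
  have h1 : IntegrableOn (fun w : ℂ => Real.exp (-2 * (κ * Real.log ‖w‖))) (Metric.ball 0 1)
      volume := by
    refine integrableOn_ball_of_norm_le_rpow (C := 1) (α := 2 * κ) ?_ ?_ ?_ ?_
    · rw [Complex.finrank_real_complex]
      norm_num
    · rw [Complex.finrank_real_complex]
      push_cast
      linarith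
    · have h2 : ∀ᵐ w : ℂ ∂(volume : Measure ℂ), w ≠ 0 := by
        rw [ae_iff]
        simp
      filter_upwards [ae_restrict_of_ae h2] with w hw
      have hw' : 0 < ‖w‖ := norm_pos_iff.2 hw
      rw [Real.norm_eq_abs, Real.abs_exp, one_mul, Real.rpow_def_of_pos hw']
      refine le_of_eq ?_
      congr 1
      ring
    · exact (by fun_prop : Measurable fun w : ℂ =>
        Real.exp (-2 * (κ * Real.log ‖w‖))).aestronglyMeasurable
  have h2 := h1.2
  rw [hasFiniteIntegral_iff_ofReal (Eventually.of_forall fun w => (Real.exp_pos _).le)] at h2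
  exact h2

/-- The constant. -/
noncomputable def cK (κ : ℝ) : ℝ≥0∞ :=
  (∫⁻ w in Metric.ball (0 : ℂ) 1, ee κ ‖w‖) + volume (Metric.ball (0 : ℂ) 1)

theorem cK_lt_top {κ : ℝ} (hκ1 : κ < 1) : cK κ < ∞ :=
  ENNReal.add_lt_top.2 ⟨lintegral_ee_lt_top hκ1, measure_ball_lt_top⟩

theorem lintegral_shift {κ : ℝ} (hκ : 0 ≤ κ) (b : ℂ) :
    ∫⁻ s in Metric.ball (0 : ℂ) 1, ee κ ‖s + b‖ ≤ cK κ := by
  have hm : Measurable fun w : ℂ => ee κ ‖w‖ := (measurable_ee κ).comp measurable_norm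
  have h1 : ∀ s : ℂ, ee κ ‖s + b‖ ≤
      (Metric.ball (0 : ℂ) 1).indicator (fun w => ee κ ‖w‖) (s + b) + 1 := by
    intro s
    by_cases h : s + b ∈ Metric.ball (0 : ℂ) 1
    · rw [Set.indicator_of_mem h]
      exact le_self_add
    · rw [Set.indicator_of_notMem h, zero_add]
      refine ee_le_one hκ ?_
      rw [mem_ball_zero_iff] at h
      exact not_lt.1 h
  calc ∫⁻ s in Metric.ball (0 : ℂ) 1, ee κ ‖s + b‖
      ≤ ∫⁻ s in Metric.ball (0 : ℂ) 1,
        ((Metric.ball (0 : ℂ) 1).indicator (fun w => ee κ ‖w‖) (s + b) + 1) :=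
        lintegral_mono h1
    _ = (∫⁻ s in Metric.ball (0 : ℂ) 1,
        (Metric.ball (0 : ℂ) 1).indicator (fun w => ee κ ‖w‖) (s + b)) +
          volume (Metric.ball (0 : ℂ) 1) := by
        rw [lintegral_add_right _ measurable_const, lintegral_const, Measure.restrict_apply_univ,
          one_mul]
    _ ≤ (∫⁻ s, (Metric.ball (0 : ℂ) 1).indicator (fun w => ee κ ‖w‖) (s + b)) +
          volume (Metric.ball (0 : ℂ) 1) := by
        gcongr
        exact Measure.restrict_le_self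
    _ = cK κ := by
        rw [lintegral_add_right_eq_self
          (fun w => (Metric.ball (0 : ℂ) 1).indicator (fun w => ee κ ‖w‖) w) b,
          lintegral_indicator measurableSet_ball, cK]

theorem lintegral_line {κ : ℝ} (hκ : 0 ≤ κ) (a : ℂ) {t : ℂ} (ht : t ≠ 0) :
    ∫⁻ s in Metric.ball (0 : ℂ) 1, ee κ ‖s * t + a‖ ≤ cK κ * ee κ ‖t‖ := by
  have h1 : ∀ᵐ s : ℂ ∂(volume.restrict (Metric.ball (0 : ℂ) 1)),
      ee κ ‖s * t + a‖ = ee κ ‖t‖ * ee κ ‖s + a / t‖ := by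
    have h2 : ∀ᵐ s : ℂ ∂(volume : Measure ℂ), s ≠ -(a / t) := by
      rw [ae_iff]
      simp
    filter_upwards [ae_restrict_of_ae h2] with s hs
    have h3 : s + a / t ≠ 0 := fun h => hs (eq_neg_of_add_eq_zero_left h)
    have h4 : s * t + a = t * (s + a / t) := by
      field_simp
    rw [h4, norm_mul, ee_mul (norm_ne_zero_iff.2 ht) (norm_ne_zero_iff.2 h3)]
  rw [lintegral_congr_ae h1, lintegral_const_mul' _ _ (ee_ne_top _ _), mul_comm]
  gcongr
  exact lintegral_shift hκ _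

/-- Integration over the unit polydisc. -/
theorem lintegral_polydisc {κ : ℝ} (hκ : 0 ≤ κ) {m : ℕ} (v : Fin (m + 1) → ℂ) (hv : v ≠ 0) :
    ∫⁻ l, ee κ ‖∑ j, l j * v j‖
      ∂(Measure.pi fun _ : Fin (m + 1) => volume.restrict (Metric.ball (0 : ℂ) 1)) ≤
      cK κ * volume (Metric.ball (0 : ℂ) 1) ^ m * ee κ ‖v‖ := by
  obtain ⟨j0, hj0⟩ : ∃ j0, ‖v j0‖ = ‖v‖ := by
    obtain ⟨j, -, hj⟩ := Finset.exists_mem_eq_sup' (Finset.univ_nonempty (α := Fin (m + 1)))
      (fun j => ‖v j‖₊)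
    refine ⟨j, ?_⟩
    have h1 : ‖v‖₊ = ‖v j‖₊ := by
      rw [← hj, Pi.nnnorm_def, Finset.sup'_eq_sup]
    exact congrArg NNReal.toReal h1.symm
  have hvj : v j0 ≠ 0 := by
    rw [← norm_ne_zero_iff, hj0]
    exact norm_ne_zero_iff.2 hv
  have hmp := measurePreserving_piFinSuccAbove
    (fun _ : Fin (m + 1) => volume.restrict (Metric.ball (0 : ℂ) 1)) j0
  have hsum : ∀ l : Fin (m + 1) → ℂ, ∑ j, l j * v j =
      l j0 * v j0 + ∑ i : Fin m, l (j0.succAbove i) * v (j0.succAbove i) := fun l =>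
    Fin.sum_univ_succAbove _ j0
  have h1 : ∫⁻ l, ee κ ‖∑ j, l j * v j‖
      ∂(Measure.pi fun _ : Fin (m + 1) => volume.restrict (Metric.ball (0 : ℂ) 1)) =
      ∫⁻ q : ℂ × (Fin m → ℂ), ee κ ‖q.1 * v j0 + ∑ i : Fin m, q.2 i * v (j0.succAbove i)‖
        ∂((volume.restrict (Metric.ball (0 : ℂ) 1)).prod
          (Measure.pi fun _ : Fin m => volume.restrict (Metric.ball (0 : ℂ) 1))) := by
    rw [← hmp.lintegral_comp_emb (MeasurableEquiv.measurableEmbedding _)]
    refine lintegral_congr fun l => ?_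
    rw [hsum l]
    rfl
  rw [h1, lintegral_prod_symm]
  · calc ∫⁻ y : Fin m → ℂ, (∫⁻ s in Metric.ball (0 : ℂ) 1,
          ee κ ‖s * v j0 + ∑ i : Fin m, y i * v (j0.succAbove i)‖)
          ∂(Measure.pi fun _ : Fin m => volume.restrict (Metric.ball (0 : ℂ) 1))
        ≤ ∫⁻ _y : Fin m → ℂ, cK κ * ee κ ‖v j0‖
          ∂(Measure.pi fun _ : Fin m => volume.restrict (Metric.ball (0 : ℂ) 1)) :=
          lintegral_mono fun y => lintegral_line hκ _ hvj
      _ = cK κ * volume (Metric.ball (0 : ℂ) 1) ^ m * ee κ ‖v‖ := by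
          rw [lintegral_const, Measure.pi_univ, hj0]
          simp only [Measure.restrict_apply_univ, Finset.prod_const, Finset.card_univ,
            Fintype.card_fin]
          ring
  · refine Measurable.aemeasurable ?_
    refine (measurable_ee κ).comp ?_
    fun_prop

/-- **(SUMTYPE)** -/
theorem sumtype {X : Type*} [MeasurableSpace X] {μ : Measure X} [SFinite μ] {r : ℕ} {κ : ℝ}
    (hκ0 : 0 ≤ κ) (hκ1 : κ < 1) {W : X → ℝ≥0∞} (hW : AEMeasurable W μ) {t : Fin r → X → ℂ}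
    (ht : ∀ j, AEMeasurable (t j) μ) (hne : ∀ᵐ x ∂μ, ∃ j, t j x ≠ 0)
    (hfin : ∫⁻ x, W x * ee κ ‖fun j => t j x‖ ∂μ < ∞) :
    ∀ᵐ l ∂(Measure.pi fun _ : Fin r => (volume : Measure ℂ).restrict (Metric.ball (0 : ℂ) 1)),
      ∫⁻ x, W x * ee κ ‖∑ j, l j * t j x‖ ∂μ < ∞ := by
  rcases r with _ | m
  · have h0 : ∀ᵐ x ∂μ, False := by
      filter_upwards [hne] with x hx
      exact hx.choose.elim0
    have h1 : μ = 0 := by
      rw [← Measure.measure_univ_eq_zero]
      rw [ae_iff] at h0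
      simpa using h0
    subst h1
    simp
  set ν : Measure (Fin (m + 1) → ℂ) :=
    Measure.pi fun _ : Fin (m + 1) => (volume : Measure ℂ).restrict (Metric.ball (0 : ℂ) 1) with hν
  have hm : AEMeasurable (fun q : (Fin (m + 1) → ℂ) × X => W q.2 * ee κ ‖∑ j, q.1 j * t j q.2‖)
      (ν.prod μ) := by
    refine (hW.comp_quasiMeasurePreserving Measure.quasiMeasurePreserving_snd).mul ?_
    refine (measurable_ee κ).comp_aemeasurable (AEMeasurable.norm ?_)
    refine Finset.aemeasurable_fun_sum _ fun j _ => ?_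
    refine AEMeasurable.mul ?_ ((ht j).comp_quasiMeasurePreserving
      Measure.quasiMeasurePreserving_snd)
    exact ((measurable_pi_apply j).comp measurable_fst).aemeasurable
  have h1 : ∫⁻ l, ∫⁻ x, W x * ee κ ‖∑ j, l j * t j x‖ ∂μ ∂ν < ∞ := by
    rw [lintegral_lintegral_swap hm]
    have h2 : ∀ᵐ x ∂μ, ∫⁻ l, W x * ee κ ‖∑ j, l j * t j x‖ ∂ν ≤
        cK κ * volume (Metric.ball (0 : ℂ) 1) ^ m * (W x * ee κ ‖fun j => t j x‖) := by
      filter_upwards [hne] with x hx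
      obtain ⟨j, hj⟩ := hx
      have hv : (fun j => t j x) ≠ 0 := fun h => hj (congrFun h j)
      have h3 : Measurable fun l : Fin (m + 1) → ℂ => ee κ ‖∑ j, l j * t j x‖ :=
        (measurable_ee κ).comp (by fun_prop)
      rw [lintegral_const_mul _ h3]
      calc W x * ∫⁻ l, ee κ ‖∑ j, l j * t j x‖ ∂ν
          ≤ W x * (cK κ * volume (Metric.ball (0 : ℂ) 1) ^ m * ee κ ‖fun j => t j x‖) := by
            gcongr
            exact lintegral_polydisc hκ0 _ hv
        _ = _ := by ring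
    refine (lintegral_mono_ae h2).trans_lt ?_
    have h4 : cK κ * volume (Metric.ball (0 : ℂ) 1) ^ m ≠ ∞ :=
      ENNReal.mul_ne_top (cK_lt_top hκ1).ne (ENNReal.pow_ne_top measure_ball_lt_top.ne)
    rw [lintegral_const_mul' _ _ h4]
    exact ENNReal.mul_lt_top h4.lt_top hfin
  have h5 : AEMeasurable (fun l => ∫⁻ x, W x * ee κ ‖∑ j, l j * t j x‖ ∂μ) ν :=
    hm.lintegral_prod_right'
  exact ae_lt_top' h5 h1.ne

/-- A good linear combination outside a given null set. -/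
theorem exists_sumtype {X : Type*} [MeasurableSpace X] {μ : Measure X} [SFinite μ] {r : ℕ} {κ : ℝ}
    (hκ0 : 0 ≤ κ) (hκ1 : κ < 1) {W : X → ℝ≥0∞} (hW : AEMeasurable W μ) {t : Fin r → X → ℂ}
    (ht : ∀ j, AEMeasurable (t j) μ) (hne : ∀ᵐ x ∂μ, ∃ j, t j x ≠ 0)
    (hfin : ∫⁻ x, W x * ee κ ‖fun j => t j x‖ ∂μ < ∞) (Z : Set (Fin r → ℂ)) (hZ : volume Z = 0) :
    ∃ l : Fin r → ℂ, l ∉ Z ∧ (∀ j, ‖l j‖ < 1) ∧
      ∫⁻ x, W x * ee κ ‖∑ j, l j * t j x‖ ∂μ < ∞ := by
  have h1 := sumtype hκ0 hκ1 hW ht hne hfin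
  have h2 : (Measure.pi fun _ : Fin r => (volume : Measure ℂ).restrict (Metric.ball (0 : ℂ) 1)) =
      (volume : Measure (Fin r → ℂ)).restrict (Set.univ.pi fun _ => Metric.ball (0 : ℂ) 1) := by
    rw [volume_pi, Measure.restrict_pi_pi]
  rw [h2] at h1
  have hms : MeasurableSet (Set.univ.pi fun _ : Fin r => Metric.ball (0 : ℂ) 1) :=
    MeasurableSet.univ_pi fun _ => measurableSet_ball
  have h3 : ∀ᵐ l ∂((volume : Measure (Fin r → ℂ)).restrict
      (Set.univ.pi fun _ => Metric.ball (0 : ℂ) 1)), l ∉ Z :=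
    ae_restrict_of_ae (measure_eq_zero_iff_ae_notMem.1 hZ)
  have h4 := ae_restrict_mem (μ := (volume : Measure (Fin r → ℂ))) hms
  have h5 : (volume : Measure (Fin r → ℂ)).restrict
      (Set.univ.pi fun _ => Metric.ball (0 : ℂ) 1) ≠ 0 := by
    rw [Ne, Measure.restrict_eq_zero, volume_pi, Measure.pi_pi]
    exact Finset.prod_ne_zero_iff.2 fun _ _ => (Metric.measure_ball_pos volume _ one_pos).ne'
  have : (ae ((volume : Measure (Fin r → ℂ)).restrict
      (Set.univ.pi fun _ => Metric.ball (0 : ℂ) 1))).NeBot := ae_neBot.2 h5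
  obtain ⟨l, h6, h7, h8⟩ := (h1.and (h3.and h4)).exists
  refine ⟨l, h7, fun j => ?_, h6⟩
  have h9 := h8 j (Set.mem_univ j)
  rwa [mem_ball_zero_iff] at h9

end Vale.Agent.P271.SumType
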