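import Vale.Agent.P271.H884.SumType
import Vale.Agent.P271.Zorn.LocInt

/-!
P271, row 16 (SUMTYPE) in the language of the exponent sets.
-/

open MeasureTheory Filter Topology Finsupp
open scoped ENNReal NNReal

namespace Vale.Agent.P271.SumType

open Vale.Agent.P271.Zorn

variable {H X : Type*} [MeasurableSpace X]

theorem wt_add_single (ev : H → X → ℂ) (k : H →₀ ℝ) (f : H) (κ : ℝ) (x : X) :
    wt ev (k + single f κ) x = wt ev k x * ee κ ‖ev f x‖ := by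
  unfold wt ee
  rw [lg_add, lg_single, ← ENNReal.ofReal_mul (Real.exp_pos _).le, ← Real.exp_add]
  congr 2
  ring

/-- **(SUMTYPE)**, local form. -/
theorem sumtype_LI {μ : Measure X} [SFinite μ] {l : Filter X} (hl : Bas μ l) {r : ℕ} {κ : ℝ}
    (hκ0 : 0 ≤ κ) (hκ1 : κ < 1) {W : X → ℝ≥0∞} (hW : ∃ U ∈ l, AEMeasurable W (μ.restrict U))
    {t : Fin r → X → ℂ} (ht : ∀ j, ∃ U ∈ l, AEMeasurable (t j) (μ.restrict U))
    (hne : ∀ᶠ x in l ⊓ ae μ, ∃ j, t j x ≠ 0)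
    (hfin : LI μ l fun x => W x * ee κ ‖fun j => t j x‖) (Z : Set (Fin r → ℂ))
    (hZ : volume Z = 0) :
    ∃ c : Fin r → ℂ, c ∉ Z ∧ (∀ j, ‖c j‖ < 1) ∧
      LI μ l fun x => W x * ee κ ‖∑ j, c j * t j x‖ := by
  obtain ⟨U1, hU1, hW⟩ := hW
  choose U2 hU2 ht using ht
  obtain ⟨U3, hU3, hfin⟩ := hfin
  rw [Filter.eventually_inf] at hne
  obtain ⟨V, hV, T, hT, hVT⟩ := hne
  obtain ⟨U, hU, hsub, hmeas⟩ := hl (U1 ∩ (⋂ j, U2 j) ∩ U3 ∩ V)
    (inter_mem (inter_mem (inter_mem hU1 ((Filter.iInter_mem).2 hU2)) hU3) hV)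
  have hs1 : U ⊆ U1 := fun x hx => (hsub hx).1.1.1
  have hs2 : ∀ j, U ⊆ U2 j := fun j x hx => Set.mem_iInter.1 (hsub hx).1.1.2 j
  have hs3 : U ⊆ U3 := fun x hx => (hsub hx).1.2
  obtain ⟨c, h1, h2, h3⟩ := exists_sumtype (μ := μ.restrict U) hκ0 hκ1 (W := W)
    (hW.mono_measure (Measure.restrict_mono_set _ hs1)) (t := t)
    (fun j => (ht j).mono_measure (Measure.restrict_mono_set _ (hs2 j)))
    (by
      rw [ae_restrict_iff'₀ hmeas]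
      filter_upwards [hT] with x hx hxU
      exact hVT x ⟨(hsub hxU).2, hx⟩)
    ((lintegral_mono_set hs3).trans_lt hfin) Z hZ
  exact ⟨c, h1, h2, U, hU, h3⟩

/-- **(SUMTYPE)** for exponent sets: if `T c` is an element with the values `∑ c j * t j` for every
`c` outside the null set `Z`, then some `k + κ[T c]` is an exponent. -/
theorem sumtype_PP {μ : Measure X} [SFinite μ] {l : Filter X} [CommMonoid H] {ev : H → X → ℂ}
    (h : IsEv μ l ev) {r : ℕ} {κ : ℝ} (hκ0 : 0 ≤ κ) (hκ1 : κ < 1) {k : H →₀ ℝ}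
    {t : Fin r → X → ℂ} (ht : ∀ j, ∃ U ∈ l, AEMeasurable (t j) (μ.restrict U))
    (hne : ∀ᶠ x in l ⊓ ae μ, ∃ j, t j x ≠ 0)
    (hfin : LI μ l fun x => wt ev k x * ee κ ‖fun j => t j x‖) {Z : Set (Fin r → ℂ)}
    (hZ : volume Z = 0) (T : (Fin r → ℂ) → H)
    (hT : ∀ c, c ∉ Z → ∀ᶠ x in l ⊓ ae μ, ev (T c) x = ∑ j, c j * t j x) :
    ∃ c : Fin r → ℂ, c ∉ Z ∧ k + single (T c) κ ∈ PP μ l ev := by
  obtain ⟨c, h1, -, h3⟩ := sumtype_LI h.bas hκ0 hκ1 (h.meas_wt k) ht hne hfin Z hZ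
  refine ⟨c, h1, ?_⟩
  refine LI.mono h.bas ?_ h3
  filter_upwards [hT c h1] with x hx
  rw [wt_add_single, hx]

end Vale.Agent.P271.SumType
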