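import Vale.Agent.P271.H884.HypH
import Vale.Agent.P271.H244.PshSeq

/-!
P271 (helper884), block GLOB-B (W1): the weight of a cone, pulled back to the finite étale cover, is
a weight in the sense of the global `L²` theorem.
-/

set_option linter.unusedSectionVars false

open MeasureTheory Filter Topology Metric
open scoped ENNReal NNReal Vale.Agent.P271.Inst

namespace Vale.Agent.P271.H884

open Vale.Agent.P282.L2 Vale.Agent.P282.L2.Sheets Vale.Agent.P271.Sch Vale.Agent.P271.H741
  Vale.Agent.P271.Inst

variable {n : ℕ} {C : GCone n} [Algebra (Pol (n + 1)) C.K] [IsScalarTower ℂ (Pol (n + 1)) C.K]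
  [FaithfulSMul (Pol (n + 1)) C.K] {V : Cov C} {N' : ℕ} {S : Sheets (n + 1) N'}

/-- The data of the weight on `M`. -/
theorem wdata (hS : V.E.IsSheets S) (w : RWeight C) :
    H244.WData S V.N V.e w.s (fun a j => V.f (w.g a j)) w.d w.κ where
  holo a j := V.f_holo hS (w.g a j)
  loc a j := Cov.locB_f hS (w.g a j)
  hom a j _ ht _ hq := V.f_act hS (w.mem a j) hq ht
  nonneg := w.nonneg

/-- The smooth approximations of the weight. -/
noncomputable def phiW (V : Cov C) (w : RWeight C) (k : ℕ) (q : (Fin (n + 1) → ℂ) × ℂ) : ℝ :=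
  H244.wPhi (fun a j => V.f (w.g a j)) w.κ k q

/-- **(W1)** -/
theorem weight_of (hS : V.E.IsSheets S) (w : RWeight C) :
    Glob.Weight S V.N V.e (phiW V w) (Wq V w) w.deg := (wdata hS w).weight

end Vale.Agent.P271.H884
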